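import Crest.Agent.X262.Emb96.Axd
import Crest.Agent.X262.Emb11.Defs

/-!
# Row 262, EMB, lifting (helper96), part 5: `Emb.LftStmt`
-/

set_option autoImplicit false
set_option linter.unusedSectionVars false

noncomputable section

namespace Crest.Agent.X262.Emb96

open Polynomial Crest.Agent.X277 Crest.Agent.X277.BD Crest.Agent.X277.BD.Cyc Crest.Agent.X262.Vb
open Crest.Agent.X262.Bub96 Crest.Agent.X262.Bub96.Tr Crest.Agent.X262.Tree87 Crest.Agent.X262.Emb

variable {J : Type} [Fintype J] [DecidableEq J] {io : Option J → Type} [∀ j, Fintype (io j)]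
  [∀ j, DecidableEq (io j)] {A A' : Type} [Fintype A] [Fintype A'] {T : Tgt (bs io) A}
  {T' : Tgt io A'} {d : J → ℕ} {E : Type} [Field E] [Algebra ℂ E]

theorem pv_upq (y : Pnt io E) (Q : MvPolynomial (Vr (bs io)) ℂ) :
    pv y (upq Q) = pv (prP y) Q := by
  rw [pv, upq, MvPolynomial.aeval_rename]; rfl

theorem pv_span {y : Pnt io E} (h : T'.On y) {Q : MvPolynomial (Vr io) ℂ}
    (hQ : Q ∈ Ideal.span (Set.range T'.F)) : pv y Q = 0 := by
  obtain ⟨c, rfl⟩ := Ideal.mem_span_range_iff_exists_fun.1 hQ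
  simp only [pv, map_sum, map_mul]
  exact Finset.sum_eq_zero fun a _ => mul_eq_zero_of_right _ (h a)

theorem wd_of_on (G : Gr T T' d) {y : Pnt io E} (h : T'.On y) (l : G.L) :
    Wd (y none) fun a => pv (prP y) (G.q l a) := fun a b => by
  have := pv_span h (G.idq l a b)
  simp only [← pv_upq]
  simpa only [pv, map_sub, map_mul, MvPolynomial.aeval_X, sub_eq_zero] using this

/-- the charts of a graph -/
def cht (G : Gr T T' d) : Cht T d G.L (io none) where
  m := G.m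
  q := G.q
  hom := G.hom
  cov := G.cov
  rk E _ _ y hy hT l l' := by
    by_cases h : ∃ a, pv y (G.q l a) ≠ 0
    · exact wd_of_on G (G.sec E y l hy hT h) l'
    · push Not at h
      intro a b
      simp only [h, zero_mul]

theorem on_of_wd (G : Gr T T' d) {y : Pnt io E} (hy : NZ y) (hT : T.On (prP y)) {l : G.L}
    (hl : ∃ a, pv (prP y) (G.q l a) ≠ 0) (h : Wd (y none) fun a => pv (prP y) (G.q l a)) :
    T'.On y := fun b => by
  obtain ⟨μ, hμ⟩ := h.eq_smul hl
  have hμ0 : μ ≠ 0 := fun h0 => (hy none).elim fun a ha => ha (by rw [hμ, h0, zero_mul])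
  have h1 : y = fun j i => (Option.elim j μ fun _ => 1) *
      exP (prP y) (fun a => pv (prP y) (G.q l a)) j i := by
    funext j i
    rcases j with _ | j
    · exact hμ i
    · exact (one_mul _).symm
  rw [h1, (MZ.of_MH (T'.hom b)).pv_scl (by rintro (_ | j); exacts [hμ0, one_ne_zero]),
    G.sec E (prP y) l (fun j => hy (some j)) hT hl b, mul_zero]

variable {P I K : Type} [Fintype P] [DecidableEq P] [Fintype I] [Field K] [Algebra ℂ K]

/-- a datum with one more factor -/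
def exD {n : ℕ} (ξ : Dat (bs io) d I K) (F : io none → K[X]) (h1 : ∀ i, (F i).natDegree ≤ n)
    (h2 : ∃ i, (F i).coeff n ≠ 0) (h3 : Ideal.span (Set.range F) = ⊤) : Dat io (exd d n) I K where
  f := fun
    | none => F
    | some j => ξ.f j
  x := ξ.x
  cp := by
    refine ⟨?_, ?_, ?_⟩ <;> rintro (_ | j)
    exacts [h1, ξ.cp.1 j, h2, ξ.cp.2.1 j, h3, ξ.cp.2.2 j]

theorem liftAt (G : Gr T T' d) {N N' : ℕ} {ξ : Dat (ioP (bs io) P) (dP d P) I K}
    (h : ξ.NrmUp N') (hk : ∀ a j, T.k a j ≤ N') (hN : 2 ≤ N')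
    (hN' : 2 * ∑ l, dot (G.m l) d ≤ N') (hN1 : N ≤ N') (hN2 : N * ∑ l, dot (G.m l) d ≤ N')
    {I₀ : Type} [Fintype I₀] (g : I₀ → I) (hg : (ξ.res g).Nrm (k2 J P)) (hA : Aux ξ g) :
    Lft T T' N (mnD ξ) := by
  intro V hT
  obtain ⟨κ, F, a1, a2, a3, a4⟩ := exists_lift (cht G) h (surj_plV V) hT hk hN hN' g hg hA
  set n := dot (Sum.elim 0 κ) (dP d P) with hn
  have b1 : ∀ (L : Type) [Field L] [Algebra ℂ L] (α : K →ₐ[ℂ] L) (W : RZ ℂ L),
      cm (α : K →+* L) (alg_ov α) W = V → ∀ t, (∃ i, hv n ((F i).map (α : K →+* L)) t ≠ 0) ∧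
      (mxf ℂ fun i => hv n ((F i).map (α : K →+* L)) t).val W =
        (lw (Sum.elim 0 κ) ((ξ.map α).pt t)).val W := fun L _ _ α W hW t => by
    obtain ⟨h1, i, h2⟩ := a3 L α W hW t
    have h3 := RZ.ne_zero_iff.1 ((val_pos _ _).trans_le h2).ne'
    exact ⟨⟨i, h3⟩, (val_mxf (s := fun i => hv n ((F i).map (α : K →+* L)) t) h3 fun j => (h1 j).trans h2).trans
      (le_antisymm (h1 i) h2)⟩
  have b2 := b1 K (AlgHom.id ℂ K) V rfl
  simp only [dat_map_id, show ∀ i, (F i).map (AlgHom.id ℂ K : K →+* K) = F i from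
    fun i => Polynomial.map_id] at b2
  have b3 : Ideal.span (Set.range F) = ⊤ := by
    let γ := IsScalarTower.toAlgHom ℂ K (AlgebraicClosure K)
    obtain ⟨W, hW⟩ := cm_surjective γ V
    exact span_eq_top (γ : K →+* AlgebraicClosure K) fun x => (b1 _ γ W hW (some x)).1
  let ζ : Dat io (exd d n) I K := exD (mnD ξ) F a2 (b2 none).1 b3
  let up : (Option J → ℕ) → J ⊕ P → ℕ := fun κ' =>
    Sum.elim (fun j => κ' (some j)) fun x => κ' none * κ x
  have c1 : ∀ κ', dot κ' (exd d n) = dot (up κ') (dP d P) := fun κ' => by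
    rw [dot_dP, dot, Fintype.sum_option, add_comm, ← Finset.mul_sum]
    congr 2
    rw [exd, hn, dot_dP]; simp [dot]
  have c2 : ∀ κ' : Option J → ℕ, (∀ j, κ' j ≤ N) → ∀ j, up κ' j ≤ N' := fun κ' hκ => by
    rintro (j | x)
    exacts [(hκ _).trans hN1, (Nat.mul_le_mul (hκ none) (a1 x)).trans hN2]
  have c3 : ∀ κ' : Option J → ℕ, (∀ j, κ' j ≤ N) → NAt ζ V κ' := by
    intro κ' hκ L _ _ α W hW
    have e : ∀ t, (lw κ' ((ζ.map α).pt t)).val W = (lw (up κ') ((ξ.map α).pt t)).val W := fun t => by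
      rw [val_lw_elim, val_lw', Fintype.prod_option, mul_comm, val_lw']
      congr 1
      refine (congrArg (· ^ κ' none) (b1 L α W hW t).2).trans ?_
      rw [val_lw_elim, val_lw']
      simp only [Pi.zero_apply, pow_zero, Finset.prod_const_one, one_mul,
        ← Finset.prod_pow, ← pow_mul, mul_comm]
    simp only [c1, e]
    exact h _ (c2 κ' hκ) L α W
  have c4 : ∀ N₁ ≤ N, TL (exd d n) N₁ (ζ.cfg.red (plV V)) := fun N₁ h1 =>
    tl_loc (plV V) (fun κ' hκ => c3 κ' fun j => (hκ j).trans h1) fun κ' hκ =>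
      finrank_of_inj fun σ => by
        rw [c1]; exact nrm_inj (h _ (c2 κ' fun j => (hκ j).trans h1))
  refine ⟨n, ζ, rfl, fun q => ?_, c4 N le_rfl, fun L _ _ α W hW κ' hκ => c3 κ' hκ L α W hW⟩
  obtain ⟨l, h1, h2⟩ := a4 q
  refine on_of_wd G ((c4 N le_rfl).nz q) (hT q) h1 fun i i' => ?_
  set c := ch V (Sum.elim 0 κ) (ξ.pt (ξ.x q)) with hc
  set e := ζ.cfg.nrm V q none / c with he
  have e1 : e ∈ V.1 := by
    rw [← RZ.le_one_iff, he, map_div₀, hc, v_ch, Cfg.nrm, map_inv₀, v_gen, ← (b2 (ξ.x q)).2]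
    exact div_self_le_one _
  have e2 : ∀ i, (ζ.cfg.red (plV V)).y q none i =
      (plV V).r e * (plV V).r (c * hv n (F i) (ξ.x q)) := fun i => by
    have h3 : c * hv n (F i) (ξ.x q) ∈ V.1 :=
      ch_mem.2 ((b2 (ξ.x q)).2 ▸ mem_Sec_mxf (fun i => hv n (F i) (ξ.x q)) i V)
    rw [← Pl.r_mul (p := plV V) e1 h3, ← mul_assoc, he, div_mul_cancel₀ _ (ch_ne _ _ _)]
    rfl
  rw [e2, e2, mul_assoc, mul_assoc]
  exact congrArg _ (h2 i i')

/-- **liftable data exist over a finite extension** -/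
theorem lftStmt : LftStmt := by
  intro J _ _ io _ _ A A' _ _ T T' d G N M K _ _ _ _ ξ
  obtain ⟨L, _, _, _, _, _, P, I, I₀, _, _, _, _, g, m, η, h1, h2, h3, h4⟩ := exists_aux ξ
    (N + N * ∑ l, dot (G.m l) d + 2 * ∑ l, dot (G.m l) d + 2 + ∑ a, ∑ j, T.k a j)
  refine ⟨L, inferInstance, inferInstance, Algebra.EssFiniteType.comp ℂ K L, _, I, inferInstance,
    m, mnD η, by rw [deg_tower]; exact Module.finrank_pos, h1, fun κ hκ => nrm_mnD.2 (h2 _ ?_),
    liftAt G h2 (fun a j => le_trans ?_ (Nat.le_add_left _ _)) (by omega) (by omega) (by omega)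
      (by omega) g h3 h4⟩
  · rintro (j | x)
    · exact (hκ j).trans (by omega)
    · exact Nat.zero_le _
  · exact (Finset.single_le_sum (f := T.k a) (fun _ _ => Nat.zero_le _) (Finset.mem_univ j)).trans
      (Finset.single_le_sum (f := fun a => ∑ j, T.k a j) (fun _ _ => Nat.zero_le _)
        (Finset.mem_univ a))

end Crest.Agent.X262.Emb96
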