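import Crest.Agent.X262.Bub96.Tree

/-!
# Row 262, EMB, lifting (helper96), part 1: line bundles of arbitrary multidegree on a tree

`IsS`, `vl` : sections and values; `rt` : the retraction to a vertex; `ext`, `vl_rt`, `vd_of_three`;
`fact` (a rank one family of tuples factors), `prop` (proportional tuples), `surj` (tuples without
common zero generate).
-/

set_option autoImplicit false
set_option linter.unusedSectionVars false

noncomputable section

namespace Crest.Agent.X262.Emb96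

open Polynomial Crest.Agent.X262.Bub96 Crest.Agent.X262.Bub96.Tr

variable {k : Type*} [Field k] {J : Type*} {io : J → Type*} {ι Λ : Type*}

/-- value of a tuple of binary forms of degrees `δ` -/
def vl (T : Tr k J io) (δ : T.Vx → ℕ) (s : T.Vx → k[X]) (x : T.Pt) : k := hv (δ x.1) (s x.1) x.2

/-- sections of the line bundle of multidegree `δ` -/
def IsS : (T : Tr k J io) → (T.Vx → ℕ) → (T.Vx → k[X]) → Prop
  | leaf _ _, δ, s => (s ()).natDegree ≤ δ ()
  | glue T p S, δ, s => IsS T (fun a => δ (Sum.inl a)) (fun a => s (Sum.inl a)) ∧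
      IsS S (fun a => δ (Sum.inr a)) (fun a => s (Sum.inr a)) ∧
      hv (δ (Sum.inr S.root)) (s (Sum.inr S.root)) none =
        hv (δ (Sum.inl T.root)) (s (Sum.inl T.root)) (some p)

theorem isS_iff [Fintype J] (κ : J → ℕ) : (T : Tr k J io) → (s : T.Vx → k[X]) →
    (IsS T (fun a => dot κ (T.vd a)) s ↔ T.IsSec κ s)
  | leaf _ _, _ => Iff.rfl
  | glue T _ S, _ => and_congr (isS_iff κ T _) (and_congr (isS_iff κ S _) Iff.rfl)

theorem IsS.le : {T : Tr k J io} → {δ : T.Vx → ℕ} → {s : T.Vx → k[X]} → IsS T δ s →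
    ∀ a, (s a).natDegree ≤ δ a
  | leaf _ _, _, _, h, _ => h
  | glue _ _ _, _, _, h, Sum.inl a => IsS.le h.1 a
  | glue _ _ _, _, _, h, Sum.inr a => IsS.le h.2.1 a

theorem IsS.smul (c : k) : {T : Tr k J io} → {δ : T.Vx → ℕ} → {s : T.Vx → k[X]} → IsS T δ s →
    IsS T δ fun a => C c * s a
  | leaf _ _, _, _, h => (natDegree_C_mul_le _ _).trans h
  | glue _ _ _, _, _, h => ⟨IsS.smul c h.1, IsS.smul c h.2.1, by
      rw [hv_C_mul, hv_C_mul, h.2.2]⟩

theorem IsS.add : {T : Tr k J io} → {δ : T.Vx → ℕ} → {s s' : T.Vx → k[X]} → IsS T δ s →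
    IsS T δ s' → IsS T δ fun a => s a + s' a
  | leaf _ _, _, _, _, h, h' => (natDegree_add_le _ _).trans (max_le h h')
  | glue _ _ _, _, _, _, h, h' => ⟨IsS.add h.1 h'.1, IsS.add h.2.1 h'.2.1, by
      rw [hv_add, hv_add, h.2.2, h'.2.2]⟩

theorem IsS.mul : {T : Tr k J io} → {δ δ' : T.Vx → ℕ} → {s s' : T.Vx → k[X]} → IsS T δ s →
    IsS T δ' s' → IsS T (fun a => δ a + δ' a) fun a => s a * s' a
  | leaf _ _, _, _, _, _, h, h' => natDegree_mul_le.trans (add_le_add h h')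
  | glue _ _ _, _, _, _, _, h, h' => ⟨IsS.mul h.1 h'.1, IsS.mul h.2.1 h'.2.1,
      (hv_mul (h.le _) (h'.le _) _).trans ((congrArg₂ (· * ·) h.2.2 h'.2.2).trans
        (hv_mul (h.le _) (h'.le _) _).symm)⟩

theorem isS_vg (j : J) (i : io j) : {T : Tr k J io} → T.OK →
    IsS T (fun a => T.vd a j) fun a => T.vg a j i
  | leaf _ _, h => h.1 j i
  | glue _ _ _, h => ⟨isS_vg j i h.1, isS_vg j i h.2.1, h.2.2.2 j i⟩

/-! ### the retraction to a vertex -/

/-- the retraction to the vertex `a` -/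
def rt : (T : Tr k J io) → T.Vx → T.Pt → Option k
  | leaf _ _, _, x => x.2
  | glue T _ _, Sum.inl a, (Sum.inl b, u) => rt T a (b, u)
  | glue T p _, Sum.inl a, (Sum.inr _, _) => rt T a (T.root, some p)
  | glue _ _ S, Sum.inr a, (Sum.inl _, _) => rt S a (S.root, none)
  | glue _ _ S, Sum.inr a, (Sum.inr b, u) => rt S a (b, u)

/-- a form on a vertex extends to a section which vanishes on the branches at its zeros -/
theorem ext : (T : Tr k J io) → (δ : T.Vx → ℕ) → (a : T.Vx) → (σ : k[X]) → σ.natDegree ≤ δ a →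
    ∃ s, IsS T δ s ∧ s a = σ ∧ ∀ x, hv (δ a) σ (rt T a x) = 0 → vl T δ s x = 0
  | leaf _ _, _, _, σ, h => ⟨fun _ => σ, h, rfl, fun _ hx => hx⟩
  | glue T p S, δ, Sum.inl a, σ, h => by
    obtain ⟨s, h1, h2, h3⟩ := ext T (fun b => δ (Sum.inl b)) a σ h
    obtain ⟨s', h4, h5, -⟩ := ext S (fun b => δ (Sum.inr b)) S.root (X ^ δ (Sum.inr S.root))
      (natDegree_X_pow_le _)
    refine ⟨Sum.elim s fun b => C (hv (δ (Sum.inl T.root)) (s T.root) (some p)) * s' b,
      ⟨h1, h4.smul _, ?_⟩, h2, ?_⟩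
    · exact (hv_C_mul _ _ _ _).trans (by rw [h5, hv_none, coeff_X_pow_self, mul_one]; rfl)
    · rintro ⟨b | b, u⟩ hx
      · exact h3 (b, u) hx
      · have : hv (δ (Sum.inl T.root)) (s T.root) (some p) = 0 := h3 (T.root, some p) hx
        simp only [vl, Sum.elim_inr, hv_C_mul, this, zero_mul]
  | glue T p S, δ, Sum.inr a, σ, h => by
    obtain ⟨s, h1, h2, h3⟩ := ext S (fun b => δ (Sum.inr b)) a σ h
    obtain ⟨s', h4, h5, -⟩ := ext T (fun b => δ (Sum.inl b)) T.root 1 (by simp)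
    refine ⟨Sum.elim (fun b => C (hv (δ (Sum.inr S.root)) (s S.root) none) * s' b) s,
      ⟨h4.smul _, h1, ?_⟩, h2, ?_⟩
    · exact ((hv_C_mul _ _ _ _).trans (by rw [h5, hv_some, eval_one, mul_one]; rfl)).symm
    · rintro ⟨b | b, u⟩ hx
      · have : hv (δ (Sum.inr S.root)) (s S.root) none = 0 := h3 (S.root, none) hx
        simp only [vl, Sum.elim_inl, hv_C_mul, this, zero_mul]
      · exact h3 (b, u) hx

theorem vl_const : {T : Tr k J io} → {δ : T.Vx → ℕ} → {s : T.Vx → k[X]} → IsS T δ s →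
    (∀ a, δ a = 0) → ∀ x y, vl T δ s x = vl T δ s y
  | leaf _ _, δ, s, hs, h, x, y => by
    have hs' : (s ()).natDegree ≤ δ () := hs
    show hv (δ ()) (s ()) x.2 = hv (δ ()) (s ()) y.2
    rw [h ()] at hs' ⊢
    rw [eq_C_of_natDegree_le_zero hs']
    rcases x.2 with _ | _ <;> rcases y.2 with _ | _ <;> simp
  | glue T p S, δ, s, hs, h, x, y => by
    have h1 := vl_const hs.1 fun a => h (Sum.inl a)
    have h2 := vl_const hs.2.1 fun a => h (Sum.inr a)
    have key : ∀ x, vl (glue T p S) δ s x =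
        hv (δ (Sum.inl T.root)) (s (Sum.inl T.root)) (some p) := by
      rintro ⟨a | a, u⟩
      · exact h1 (a, u) (T.root, some p)
      · exact (h2 (a, u) (S.root, none)).trans hs.2.2
    rw [key, key]

/-- a section of a bundle concentrated on one vertex factors through the retraction -/
theorem vl_rt : {T : Tr k J io} → {δ : T.Vx → ℕ} → {s : T.Vx → k[X]} → IsS T δ s → (a : T.Vx) →
    (∀ b, b ≠ a → δ b = 0) → ∀ x, vl T δ s x = hv (δ a) (s a) (rt T a x)
  | leaf _ _, _, _, _, _, _, _ => rfl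
  | glue T p S, _, _, hs, Sum.inl a, h, x => by
    have h1 := vl_rt hs.1 a fun b hb => h _ fun e => hb (Sum.inl_injective e)
    rcases x with ⟨b | b, u⟩
    · exact h1 (b, u)
    · exact ((vl_const hs.2.1 (fun b => h _ Sum.inr_ne_inl) (b, u) (S.root, none)).trans
        hs.2.2).trans (h1 (T.root, some p))
  | glue T p S, _, _, hs, Sum.inr a, h, x => by
    have h1 := vl_rt hs.2.1 a fun b hb => h _ fun e => hb (Sum.inr_injective e)
    rcases x with ⟨b | b, u⟩
    · exact ((vl_const hs.1 (fun b => h _ Sum.inl_ne_inr) (b, u) (T.root, some p)).trans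
        hs.2.2.symm).trans (h1 (S.root, none))
    · exact h1 (b, u)

theorem rt_or : (T : Tr k J io) → (a a' : T.Vx) → a ≠ a' →
    ∃ c c', ∀ x, rt T a x = c ∨ rt T a' x = c'
  | leaf _ _, _, _, h => absurd rfl h
  | glue T p _, Sum.inl a, Sum.inl a', h => by
    obtain ⟨c, c', h1⟩ := rt_or T a a' fun e => h (congrArg _ e)
    refine ⟨c, c', ?_⟩
    rintro ⟨b | b, u⟩
    · exact h1 (b, u)
    · exact h1 (T.root, some p)
  | glue _ _ S, Sum.inr a, Sum.inr a', h => by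
    obtain ⟨c, c', h1⟩ := rt_or S a a' fun e => h (congrArg _ e)
    refine ⟨c, c', ?_⟩
    rintro ⟨b | b, u⟩
    · exact h1 (S.root, none)
    · exact h1 (b, u)
  | glue T p S, Sum.inl a, Sum.inr a', _ => by
    refine ⟨rt T a (T.root, some p), rt S a' (S.root, none), ?_⟩
    rintro ⟨b | b, u⟩
    · exact Or.inr rfl
    · exact Or.inl rfl
  | glue T p S, Sum.inr a, Sum.inl a', _ => by
    refine ⟨rt S a (S.root, none), rt T a' (T.root, some p), ?_⟩
    rintro ⟨b | b, u⟩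
    · exact Or.inl rfl
    · exact Or.inr rfl

/-- a factor of degree one which separates three branches at `a` is concentrated on `a` -/
theorem vd_of_three {T : Tr k J io} (hT : T.OK) {j : J} (hj : T.deg j = 1) (a : T.Vx)
    (x : Fin 3 → T.Pt) (h1 : Function.Injective fun l => rt T a (x l))
    (h2 : Function.Injective fun l => T.ev (x l) j) :
    T.vd a j = 1 ∧ ∀ b, b ≠ a → T.vd b j = 0 := by
  classical
  rw [← sum_vd] at hj
  obtain ⟨a', -, ha'⟩ := Finset.exists_ne_zero_of_sum_ne_zero (hj.trans_ne one_ne_zero)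
  rw [← Finset.add_sum_erase _ _ (Finset.mem_univ a')] at hj
  have h3 : ∀ b, b ≠ a' → T.vd b j = 0 := fun b hb =>
    Finset.sum_eq_zero_iff.1 (show ∑ b ∈ Finset.univ.erase a', T.vd b j = 0 by omega) b
      (Finset.mem_erase.2 ⟨hb, Finset.mem_univ _⟩)
  by_cases h : a = a'
  · subst h; exact ⟨by omega, h3⟩
  exfalso
  obtain ⟨c, c', h4⟩ := rt_or T a a' h
  have h5 : ∀ l l', rt T a (x l) ≠ c → rt T a (x l') ≠ c → l = l' := fun l l' hl hl' =>
    h2 (_root_.funext fun i => by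
      have := vl_rt (isS_vg j i hT) a' h3
      exact (this (x l)).trans (by
        rw [(h4 _).resolve_left hl, ← (h4 _).resolve_left hl']; exact (this (x l')).symm))
  have h6 : ∀ l l', rt T a (x l) = c → rt T a (x l') = c → l = l' := fun l l' hl hl' =>
    h1 (hl.trans hl'.symm)
  by_cases e0 : rt T a (x 0) = c
  · exact absurd (h5 1 2 (fun e => absurd (h6 0 1 e0 e) (by decide))
      fun e => absurd (h6 0 2 e0 e) (by decide)) (by decide)
  · by_cases e1 : rt T a (x 1) = c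
    · exact absurd (h5 0 2 e0 fun e => absurd (h6 1 2 e1 e) (by decide)) (by decide)
    · exact absurd (h5 0 1 e0 e1) (by decide)

/-- the linear form which vanishes at a point -/
def lin {R : Type*} [CommRing R] : Option R → R[X]
  | none => 1
  | some r => X - C r

theorem natDegree_lin {R : Type*} [CommRing R] (r : Option R) : (lin r).natDegree ≤ 1 := by
  rcases r with _ | r
  · simp [lin]
  · exact natDegree_X_sub_C_le r

theorem hv_lin (r t : Option k) : hv 1 (lin r) t = 0 ↔ t = r := by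
  rcases r with _ | r <;> rcases t with _ | t <;> simp [lin, coeff_one, sub_eq_zero]

theorem lin_ne (r : Option k) : lin r ≠ 0 := by
  rcases r with _ | r
  · exact one_ne_zero
  · exact X_sub_C_ne_zero r

/-- a norming family meets three branches at every vertex of degree at least two -/
theorem exists_three {T : Tr k J io} {δ : T.Vx → ℕ} {I : Type*} (sp : I → T.Pt)
    (hN : ∀ s, IsS T δ s → (∀ q, vl T δ s (sp q) = 0) → s = 0) (a : T.Vx) (ha : 2 ≤ δ a) :
    ∃ q : Fin 3 → I, (Function.Injective fun l => rt T a (sp (q l))) ∧ ∀ l l', l < l' →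
      ∃ s, IsS T δ s ∧ vl T δ s (sp (q l)) = 0 ∧ vl T δ s (sp (q l')) ≠ 0 := by
  have key : ∀ u v : Option k, ∃ s q, IsS T δ s ∧ vl T δ s (sp q) ≠ 0 ∧ rt T a (sp q) ≠ u ∧
      rt T a (sp q) ≠ v ∧ ∀ x, rt T a x = u ∨ rt T a x = v → vl T δ s x = 0 := by
    intro u v
    obtain ⟨m, hm⟩ := Nat.exists_eq_add_of_le ha
    have h1 : (lin u * lin v).natDegree ≤ 1 + 1 :=
      natDegree_mul_le.trans (add_le_add (natDegree_lin u) (natDegree_lin v))
    have h2 : ((X : k[X]) ^ m).natDegree ≤ m := natDegree_X_pow_le m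
    obtain ⟨s, h3, h4, h5⟩ := ext T δ a (lin u * lin v * X ^ m)
      (hm ▸ natDegree_mul_le.trans (add_le_add h1 h2))
    have h6 : ∀ x, rt T a x = u ∨ rt T a x = v → vl T δ s x = 0 := fun x hx => h5 x (by
      rw [hm, hv_mul h1 h2, hv_mul (natDegree_lin u) (natDegree_lin v)]
      rcases hx with hx | hx
      · rw [(hv_lin _ _).2 hx, zero_mul, zero_mul]
      · rw [(hv_lin _ _).2 hx, mul_zero, zero_mul])
    by_contra hc
    push Not at hc
    refine mul_ne_zero (mul_ne_zero (lin_ne u) (lin_ne v)) (pow_ne_zero m X_ne_zero)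
      (h4.symm.trans (congrFun (hN s h3 fun q => ?_) a))
    by_contra h7
    obtain ⟨x, hx, hx'⟩ := hc s q h3 h7 (fun e => h7 (h6 _ (Or.inl e))) fun e => h7 (h6 _ (Or.inr e))
    exact hx' (h6 x hx)
  obtain ⟨-, q0, -⟩ := key none none
  obtain ⟨s1, q1, a1, b1, c1, -, e1⟩ := key (rt T a (sp q0)) (rt T a (sp q0))
  obtain ⟨s2, q2, a2, b2, c2, d2, e2⟩ := key (rt T a (sp q0)) (rt T a (sp q1))
  refine ⟨![q0, q1, q2], fun l l' h => ?_, fun l l' h => ?_⟩
  · fin_cases l <;> fin_cases l' <;> first | rfl | (exfalso; simp_all)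
  · fin_cases l <;> fin_cases l' <;> first
      | exact absurd h (by decide)
      | exact ⟨s1, a1, e1 _ (Or.inl rfl), b1⟩
      | exact ⟨s2, a2, e2 _ (Or.inl rfl), b2⟩
      | exact ⟨s2, a2, e2 _ (Or.inr rfl), b2⟩

/-! ### tuples -/

/-- proportional vectors -/
def Wd {R : Type*} [Mul R] (u w : ι → R) : Prop := ∀ i i', u i * w i' = u i' * w i

theorem Wd.eq_smul {u w : ι → k} (h : Wd u w) (hw : ∃ i, w i ≠ 0) : ∃ μ, ∀ i, u i = μ * w i := by
  obtain ⟨i₀, h0⟩ := hw
  exact ⟨u i₀ / w i₀, fun i => by rw [div_mul_eq_mul_div, eq_div_iff h0, h i i₀]⟩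

theorem Wd.trans {u v w : ι → k} (h : Wd u w) (h' : Wd v w) (hw : ∃ i, w i ≠ 0) : Wd u v := by
  obtain ⟨μ, h1⟩ := h.eq_smul hw
  obtain ⟨ν, h2⟩ := h'.eq_smul hw
  intro i i'
  rw [h1 i, h1 i', h2 i, h2 i']; ring

theorem Wd.hv {u w : ι → k[X]} (h : Wd u w) {d e : ℕ} (hu : ∀ i, (u i).natDegree ≤ d)
    (hw : ∀ i, (w i).natDegree ≤ e) (x : Option k) :
    Wd (fun i => hv d (u i) x) fun i => hv e (w i) x := fun i i' => by
  simp only [← hv_mul (hu _) (hw _), h i i']

variable [Fintype ι]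

theorem span_eq_top {K : Type*} [Field K] [IsAlgClosed k] (γ : K →+* k) {s : ι → K[X]}
    (h : ∀ x : k, ∃ i, ((s i).map γ).eval x ≠ 0) : Ideal.span (Set.range s) = ⊤ := by
  obtain ⟨g, hg⟩ := (IsPrincipalIdealRing.principal (Ideal.span (Set.range s))).principal
  rw [hg, Ideal.submodule_span_eq, Ideal.span_singleton_eq_top, isUnit_iff_degree_eq_zero]
  by_contra h0
  obtain ⟨x, hx⟩ := IsAlgClosed.exists_root (g.map γ) (by rwa [degree_map])
  obtain ⟨i, hi⟩ := h x
  have h1 : g ∣ s i := Ideal.mem_span_singleton.1 (by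
    rw [← Ideal.submodule_span_eq, ← hg]; exact Ideal.subset_span ⟨i, rfl⟩)
  exact hi (hx.dvd (Polynomial.map_dvd γ h1))

theorem exists_bez [IsAlgClosed k] {s : ι → k[X]} {δ : ℕ} (h : ∀ x, ∃ i, hv δ (s i) x ≠ 0)
    (σ : k[X]) : ∃ τ : ι → k[X], ∑ i, τ i * s i = σ :=
  Ideal.mem_span_range_iff_exists_fun.1 (by
    rw [span_eq_top (RingHom.id k) fun x => by simpa using h (some x)]; trivial)

theorem fact_leaf {D : ℕ} {G : ι → k[X]} (hG : ∀ i, (G i).natDegree ≤ D)
    (h0 : ∃ i, hv D (G i) none ≠ 0) : ∃ δ ≤ D, ∃ (γ : k[X]) (s : ι → k[X]), γ ≠ 0 ∧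
      (∀ i, G i = γ * s i) ∧ (∀ i, (s i).natDegree ≤ δ) ∧ ∀ x, ∃ i, hv δ (s i) x ≠ 0 := by
  obtain ⟨γ, hγ⟩ := (IsPrincipalIdealRing.principal (Ideal.span (Set.range G))).principal
  have h1 : ∀ i, γ ∣ G i := fun i => Ideal.mem_span_singleton.1 (by
    rw [← Ideal.submodule_span_eq, ← hγ]; exact Ideal.subset_span ⟨i, rfl⟩)
  choose s hs using h1
  obtain ⟨c, hc⟩ := Ideal.mem_span_range_iff_exists_fun.1
    (show γ ∈ Ideal.span (Set.range G) from hγ ▸ Submodule.mem_span_singleton_self γ)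
  obtain ⟨i₀, hi₀⟩ := h0
  have hG0 : G i₀ ≠ 0 := fun h => hi₀ (by rw [h, hv_zero])
  have hγ0 : γ ≠ 0 := fun h => hG0 (by rw [hs, h, zero_mul])
  have h2 : ∑ i, c i * s i = 1 := mul_left_cancel₀ hγ0 (by
    rw [mul_one, Finset.mul_sum]
    exact (Finset.sum_congr rfl fun i _ => by rw [hs i, mul_left_comm]).trans hc)
  obtain ⟨δ, hδ⟩ := Nat.exists_eq_add_of_le ((natDegree_le_of_dvd ⟨_, hs i₀⟩ hG0).trans (hG i₀))
  have h3 : ∀ i, (s i).natDegree ≤ δ := fun i => by
    by_cases h : s i = 0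
    · simp [h]
    · have := hG i
      rw [hs, natDegree_mul hγ0 h] at this
      omega
  refine ⟨δ, by omega, γ, s, hγ0, hs, h3, fun x => ?_⟩
  rcases x with _ | x
  · exact ⟨i₀, fun h => hi₀ (by rw [hs, hδ, hv_mul le_rfl (h3 _), h, mul_zero])⟩
  · by_contra hc'
    push Not at hc'
    have := congrArg (eval x) h2
    rw [eval_finsetSum, eval_one, Finset.sum_eq_zero fun i _ => by
      rw [eval_mul, show (s i).eval x = 0 from hc' i, mul_zero]] at this
    exact zero_ne_one this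

/-- a family of tuples of sections of rank one factors through a tuple without common zero -/
theorem fact [Infinite k] : (T : Tr k J io) → (D : Λ → T.Vx → ℕ) → (G : Λ → ι → T.Vx → k[X]) →
    (∀ l i, IsS T (D l) (G l i)) → (∀ x, ∃ l i, vl T (D l) (G l i) x ≠ 0) →
    (∀ x l l', Wd (fun i => vl T (D l) (G l i) x) fun i => vl T (D l') (G l' i) x) →
    ∀ u : ι → k, (∃ i, u i ≠ 0) → (∀ l, Wd u fun i => vl T (D l) (G l i) (T.root, none)) →
    ∃ (δ : T.Vx → ℕ) (s : ι → T.Vx → k[X]), (∀ i, IsS T δ (s i)) ∧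
      (∀ x, ∃ i, vl T δ (s i) x ≠ 0) ∧
      (∀ x l, Wd (fun i => vl T δ (s i) x) fun i => vl T (D l) (G l i) x) ∧
      (∀ a, ∃ l, δ a ≤ D l a) ∧ ∀ i, vl T δ (s i) (T.root, none) = u i
  | leaf d g, D, G, hG, hc, hr, u, hu, hu' => by
    obtain ⟨l₀, h0⟩ := hc ((), none)
    obtain ⟨δ, hδ, γ, s, hγ, hs, h1, h2⟩ := fact_leaf (fun i => (hG l₀ i).le ()) h0
    have h3 : ∀ l, Wd s fun i => G l i () := fun l i i' => mul_left_cancel₀ hγ (by
      rw [← mul_assoc, ← mul_assoc, ← hs, ← hs]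
      exact Polynomial.funext fun x => by
        rw [eval_mul, eval_mul]; exact hr ((), some x) l₀ l i i')
    obtain ⟨μ, hμ⟩ := ((hu' l₀).trans ((h3 l₀).hv h1 (fun i => (hG l₀ i).le ()) none) h0).eq_smul
      (h2 none)
    have hμ0 : μ ≠ 0 := fun h => hu.elim fun i hi => hi (by rw [hμ, h, zero_mul])
    refine ⟨fun _ => δ, fun i _ => C μ * s i, fun i => (natDegree_C_mul_le _ _).trans (h1 i),
      fun x => ?_, fun x l i i' => ?_, fun _ => ⟨l₀, hδ⟩, fun i => ?_⟩
    · obtain ⟨i, hi⟩ := h2 x.2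
      exact ⟨i, by rw [vl, hv_C_mul]; exact mul_ne_zero hμ0 hi⟩
    · simp only [vl, hv_C_mul, mul_assoc]
      exact congrArg _ ((h3 l).hv h1 (fun i => (hG l i).le ()) x.2 i i')
    · rw [vl, hv_C_mul, hμ]
  | glue T p S, D, G, hG, hc, hr, u, hu, hu' => by
    obtain ⟨δ, s, a1, a2, a3, a4, a5⟩ := fact T (fun l a => D l (Sum.inl a))
      (fun l i a => G l i (Sum.inl a)) (fun l i => (hG l i).1) (fun x => hc (Sum.inl x.1, x.2))
      (fun x => hr (Sum.inl x.1, x.2)) u hu hu'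
    obtain ⟨δ', s', b1, b2, b3, b4, b5⟩ := fact S (fun l a => D l (Sum.inr a))
      (fun l i a => G l i (Sum.inr a)) (fun l i => (hG l i).2.1) (fun x => hc (Sum.inr x.1, x.2))
      (fun x => hr (Sum.inr x.1, x.2)) (fun i => vl T δ (s i) (T.root, some p)) (a2 _)
      fun l i i' => by
        simp only [vl, (hG l _).2.2]
        exact a3 (T.root, some p) l i i'
    refine ⟨Sum.elim δ δ', fun i => Sum.elim (s i) (s' i), fun i => ⟨a1 i, b1 i, b5 i⟩, ?_, ?_, ?_,
      a5⟩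
    · rintro ⟨a | a, x⟩
      exacts [a2 (a, x), b2 (a, x)]
    · rintro ⟨a | a, x⟩
      exacts [a3 (a, x), b3 (a, x)]
    · rintro (a | a)
      exacts [a4 a, b4 a]

theorem prop_leaf [IsAlgClosed k] {δ : ℕ} {s s' : ι → k[X]}
    (hs' : ∀ i, (s' i).natDegree ≤ δ) (h0 : ∀ x, ∃ i, hv δ (s i) x ≠ 0) (h : Wd s' s) :
    ∃ μ, ∀ i, s' i = C μ * s i := by
  obtain ⟨c, hc⟩ := exists_bez h0 1
  obtain ⟨i₀, hi₀⟩ := h0 none
  have h1 : ∀ i, s' i = (∑ i', c i' * s' i') * s i := fun i => by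
    rw [← mul_one (s' i), ← hc, Finset.mul_sum, Finset.sum_mul]
    exact Finset.sum_congr rfl fun i' _ => by rw [mul_left_comm, h i i', mul_assoc]
  have h2 : (∑ i', c i' * s' i').natDegree ≤ 0 := by
    by_cases h3 : ∑ i', c i' * s' i' = 0
    · simp [h3]
    · have h4 := hs' i₀
      have h5 : δ ≤ (s i₀).natDegree := le_natDegree_of_ne_zero hi₀
      rw [h1, natDegree_mul h3 fun h => hi₀ (by rw [h, hv_zero])] at h4
      omega
  exact ⟨_, fun i => by rw [← eq_C_of_natDegree_le_zero h2]; exact h1 i⟩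

/-- a tuple proportional to a tuple without common zero is a constant multiple of it -/
theorem prop [IsAlgClosed k] : (T : Tr k J io) → (δ : T.Vx → ℕ) → (s s' : ι → T.Vx → k[X]) →
    (∀ i, IsS T δ (s i)) → (∀ i, IsS T δ (s' i)) → (∀ x, ∃ i, vl T δ (s i) x ≠ 0) →
    (∀ a, Wd (fun i => s' i a) fun i => s i a) → ∃ μ, ∀ i a, s' i a = C μ * s i a
  | leaf _ _, _, s, _, _, hs', h0, h => by
    obtain ⟨μ, hμ⟩ := prop_leaf (s := fun i => s i ()) (fun i => (hs' i).le ())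
      (fun x => h0 ((), x)) (h ())
    exact ⟨μ, fun i _ => hμ i⟩
  | glue T p S, δ, s, s', hs, hs', h0, h => by
    obtain ⟨μ, hμ⟩ := prop T _ (fun i a => s i (Sum.inl a)) (fun i a => s' i (Sum.inl a))
      (fun i => (hs i).1) (fun i => (hs' i).1) (fun x => h0 (Sum.inl x.1, x.2))
      fun a => h (Sum.inl a)
    obtain ⟨ν, hν⟩ := prop S _ (fun i a => s i (Sum.inr a)) (fun i a => s' i (Sum.inr a))
      (fun i => (hs i).2.1) (fun i => (hs' i).2.1) (fun x => h0 (Sum.inr x.1, x.2))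
      fun a => h (Sum.inr a)
    obtain ⟨i, hi⟩ := h0 (Sum.inl T.root, some p)
    have h1 := (hs' i).2.2
    rw [hμ, hν, hv_C_mul, hv_C_mul, (hs i).2.2] at h1
    obtain rfl := mul_right_cancel₀ hi h1
    exact ⟨ν, fun i a => by rcases a with a | a; exacts [hμ i a, hν i a]⟩

theorem surj_leaf [IsAlgClosed k] {δ : ℕ} {s : ι → k[X]} (hs : ∀ i, (s i).natDegree ≤ δ)
    (h0 : ∀ x, ∃ i, hv δ (s i) x ≠ 0) {σ : k[X]} (hσ : σ.natDegree ≤ δ + δ) {u : ι → k}
    (hu : ∑ i, u i * hv δ (s i) none = hv (δ + δ) σ none) : ∃ τ : ι → k[X],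
      (∀ i, (τ i).natDegree ≤ δ) ∧ ∑ i, τ i * s i = σ ∧ ∀ i, hv δ (τ i) none = u i := by
  classical
  obtain ⟨i₀, hi₀⟩ := h0 none
  have hn : s i₀ ≠ 0 := fun h => hi₀ (by rw [h, hv_zero])
  have hd : (s i₀).degree = δ := by
    rw [degree_eq_natDegree hn, le_antisymm (hs i₀) (le_natDegree_of_ne_zero hi₀)]
  set σ' := σ - ∑ i, C (u i) * X ^ δ * s i with hσ'
  have hX : ∀ i, (C (u i) * X ^ δ).natDegree ≤ δ := fun i => natDegree_C_mul_X_pow_le _ _
  have h1 : σ'.degree < (δ + δ : ℕ) := by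
    rw [degree_lt_iff_coeff_zero]
    intro m hm
    rw [hσ', coeff_sub, finsetSum_coeff, sub_eq_zero]
    rcases eq_or_lt_of_le hm with rfl | hm
    · refine hu.symm.trans (Finset.sum_congr rfl fun i _ => ?_)
      rw [coeff_mul_add_eq_of_natDegree_le (hX i) (hs i), coeff_C_mul_X_pow, if_pos rfl, hv_none]
    · rw [coeff_eq_zero_of_natDegree_lt (hσ.trans_lt hm), Finset.sum_eq_zero fun i _ =>
        coeff_eq_zero_of_natDegree_lt
          ((natDegree_mul_le.trans (add_le_add (hX i) (hs i))).trans_lt hm)]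
  obtain ⟨β, hβ⟩ := exists_bez h0 σ'
  let r : ι → k[X] := fun i => β i % s i₀
  let γ : k[X] := ∑ i, β i / s i₀ * s i
  have h2 : ∀ i, (r i).degree < δ := fun i => hd ▸ degree_mod_lt _ hn
  have h3 : γ * s i₀ + ∑ i, r i * s i = σ' := by
    rw [← hβ, Finset.sum_mul, ← Finset.sum_add_distrib]
    refine Finset.sum_congr rfl fun i _ => ?_
    rw [← EuclideanDomain.div_add_mod (β i) (s i₀)]
    simp only [r, EuclideanDomain.div_add_mod]
    rw [← EuclideanDomain.div_add_mod (β i) (s i₀)]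
    simp only [EuclideanDomain.div_add_mod]
    have := EuclideanDomain.div_add_mod (β i) (s i₀)
    linear_combination s i * this
  have h4 : γ.degree < δ := by
    have h5 : (γ * s i₀).degree < (δ + δ : ℕ) := by
      rw [eq_sub_of_add_eq h3]
      refine (degree_sub_le _ _).trans_lt (max_lt h1 ((degree_sum_le _ _).trans_lt ?_))
      refine (Finset.sup_lt_iff (WithBot.bot_lt_coe _)).2 fun i _ => (degree_mul_le _ _).trans_lt ?_
      rw [Nat.cast_add]
      exact (add_le_add_right (degree_le_of_natDegree_le (hs i)) _).trans_lt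
        (WithBot.add_lt_add_right (WithBot.natCast_ne_bot δ) (h2 i))
    rw [degree_mul, hd, Nat.cast_add] at h5
    exact (WithBot.add_lt_add_iff_right (WithBot.natCast_ne_bot δ)).1 h5
  let ρ : ι → k[X] := fun i => r i + if i = i₀ then γ else 0
  have h6 : ∀ i, (ρ i).degree < δ := fun i => (degree_add_le _ _).trans_lt (max_lt (h2 i) (by
    split_ifs
    exacts [h4, WithBot.bot_lt_coe _]))
  refine ⟨fun i => C (u i) * X ^ δ + ρ i, fun i => (natDegree_add_le _ _).trans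
    (max_le (hX i) (natDegree_le_of_degree_le (h6 i).le)), ?_, fun i => ?_⟩
  · simp only [ρ, add_mul, Finset.sum_add_distrib, ite_mul, zero_mul, Finset.sum_ite_eq',
      Finset.mem_univ, if_true]
    linear_combination h3
  · rw [hv_none, coeff_add, coeff_C_mul_X_pow, if_pos rfl, coeff_eq_zero_of_degree_lt (h6 i),
      add_zero]

/-- a tuple without common zero generates the square of the bundle -/
theorem surj [IsAlgClosed k] : (T : Tr k J io) → (δ : T.Vx → ℕ) → (s : ι → T.Vx → k[X]) →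
    (∀ i, IsS T δ (s i)) → (∀ x, ∃ i, vl T δ (s i) x ≠ 0) → ∀ σ, IsS T (fun a => δ a + δ a) σ →
    ∀ u : ι → k, ∑ i, u i * vl T δ (s i) (T.root, none) =
      vl T (fun a => δ a + δ a) σ (T.root, none) → ∃ τ : ι → T.Vx → k[X], (∀ i, IsS T δ (τ i)) ∧
      (∀ a, ∑ i, τ i a * s i a = σ a) ∧ ∀ i, vl T δ (τ i) (T.root, none) = u i
  | leaf _ _, _, _, hs, h0, _, hσ, _, hu => by
    obtain ⟨τ, h1, h2, h3⟩ := surj_leaf (fun i => (hs i).le ()) (fun x => h0 ((), x)) (hσ.le ()) hu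
    exact ⟨fun i _ => τ i, h1, fun _ => h2, h3⟩
  | glue T p S, δ, s, hs, h0, σ, hσ, u, hu => by
    obtain ⟨τ, a1, a2, a3⟩ := surj T _ (fun i a => s i (Sum.inl a)) (fun i => (hs i).1)
      (fun x => h0 (Sum.inl x.1, x.2)) _ hσ.1 u hu
    obtain ⟨τ', b1, b2, b3⟩ := surj S _ (fun i a => s i (Sum.inr a)) (fun i => (hs i).2.1)
      (fun x => h0 (Sum.inr x.1, x.2)) _ hσ.2.1
      (fun i => hv (δ (Sum.inl T.root)) (τ i T.root) (some p)) (by
        refine Eq.trans ?_ hσ.2.2.symm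
        rw [← a2 T.root, hv_sum]
        exact Finset.sum_congr rfl fun i _ => (congrArg _ (hs i).2.2).trans
          (hv_mul ((a1 i).le _) ((hs i).1.le _) _).symm)
    exact ⟨fun i => Sum.elim (τ i) (τ' i), fun i => ⟨a1 i, b1 i, b3 i⟩,
      fun a => by rcases a with a | a; exacts [a2 a, b2 a], a3⟩

/-- forgetting factors -/
theorem exists_rs {J' : Type*} (e : J' → J) : (T : Tr k J io) → T.OK →
    ∃ T₀ : Tr k J' fun j => io (e j), T₀.OK ∧ (T₀.deg = fun j => T.deg (e j)) ∧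
      T₀.hole T₀.root = T.hole T.root ∧
      (∀ u, T₀.ev (T₀.root, u) = fun j => T.ev (T.root, u) (e j)) ∧
      (∀ x, ∃ y, T₀.ev y = fun j => T.ev x (e j)) ∧ ∀ y, ∃ x, T₀.ev y = fun j => T.ev x (e j)
  | leaf d g, h => ⟨leaf (fun j => d (e j)) fun j => g (e j),
      ⟨fun j => h.1 (e j), fun j => h.2 (e j)⟩, rfl, rfl, fun _ => rfl, fun x => ⟨x, rfl⟩,
      fun y => ⟨y, rfl⟩⟩
  | glue T p S, h => by
    obtain ⟨T₀, a1, a2, a3, a4, a5, a6⟩ := exists_rs e T h.1
    obtain ⟨S₀, b1, b2, -, b4, b5, b6⟩ := exists_rs e S h.2.1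
    refine ⟨glue T₀ p S₀, ⟨a1, b1, a3 ▸ h.2.2.1, fun j i => by
      rw [a4, b4]; exact h.2.2.2 (e j) i⟩, ?_, ?_, a4, ?_, ?_⟩
    · funext j
      change T₀.deg j + S₀.deg j = _
      rw [a2, b2]; rfl
    · ext x
      simp only [root_glue, mem_hole_inl, a3, true_and]
    · rintro ⟨a | a, u⟩
      · exact (a5 (a, u)).elim fun y hy => ⟨(Sum.inl y.1, y.2), hy⟩
      · exact (b5 (a, u)).elim fun y hy => ⟨(Sum.inr y.1, y.2), hy⟩
    · rintro ⟨a | a, u⟩
      · exact (a6 (a, u)).elim fun y hy => ⟨(Sum.inl y.1, y.2), hy⟩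
      · exact (b6 (a, u)).elim fun y hy => ⟨(Sum.inr y.1, y.2), hy⟩

end Crest.Agent.X262.Emb96
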