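import Crest.Agent.X262.Bub96.Lat
import Crest.Agent.X262.Tree87.T3
import Crest.Agent.X262.Emb96.Tre

/-!
# Row 262, EMB, lifting (helper96), part 2: valuative lemmas

`tl_loc` (the reduction of a locally normed datum is tree-like), `mem_red_iff` (elements of the
reduced spaces), `le_of_nrm`, `lt_of_nrm` (bounds spread from norming points), `exists_mono`.
-/

set_option autoImplicit false
set_option linter.unusedSectionVars false

noncomputable section

namespace Crest.Agent.X262.Emb96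

open Polynomial IsLocalRing Crest.Agent.X277 Crest.Agent.X277.BD Crest.Agent.X262.Vb
open Crest.Agent.X262.Bub96 Crest.Agent.X262.Bub96.Tr Crest.Agent.X262.Tree87

variable {J : Type} [Fintype J] [DecidableEq J] {io : J → Type} [∀ j, Fintype (io j)]
  [∀ j, DecidableEq (io j)] {d : J → ℕ} {I : Type}
  {K E : Type} [Field K] [Algebra ℂ K] [Field E] [Algebra ℂ E]

/-- the points are norming over all valued extensions of `V` -/
def NAt (ξ : Dat io d I K) (V : RZ ℂ K) (κ : J → ℕ) : Prop :=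
  ∀ (L : Type) [Field L] [Algebra ℂ L] (α : K →ₐ[ℂ] L) (W : RZ ℂ L),
    cm (α : K →+* L) (alg_ov α) W = V → ∀ σ : L[X], σ.natDegree ≤ dot κ d →
    (∀ q, W.v (hv (dot κ d) σ ((ξ.map α).x q)) ≤ (lw κ ((ξ.map α).pt ((ξ.map α).x q))).val W) →
    ∀ t, W.v (hv (dot κ d) σ t) ≤ (lw κ ((ξ.map α).pt t)).val W

/-- the reduction of a locally normed datum is tree-like -/
theorem tl_loc [Fintype I] {ξ : Dat io d I K} {N : ℕ} (p : Pl ℂ K ℂ E)
    (h : ∀ κ : J → ℕ, (∀ j, κ j ≤ N) → NAt ξ p.V κ)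
    (hi : ∀ κ : J → ℕ, (∀ j, κ j ≤ N) → Module.finrank K (ξ.cfg.V κ) = dot κ d + 1) :
    TL d N (ξ.cfg.red p) := by
  obtain ⟨L, _, _, _, α, W, β, hW, hβ, -⟩ := exists_ext p
  let _ : Algebra ℂ (ResidueField W.1) := (β.comp (algebraMap ℂ E)).toAlgebra
  let β' : E →ₐ[ℂ] ResidueField W.1 := { β with commutes' := fun _ => rfl }
  have := (rd W).isAlgClosed
  obtain ⟨A⟩ := exists_red (rd W) (cop_of_cp (ξ.map α).cp)
  set n := ξ.cfg.nrm p.V with hn
  have hn0 : ∀ q j, n q j ≠ 0 := fun q j => inv_ne_zero (gen_ne _ _)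
  have hmem : ∀ x, α x ∈ W.1 ↔ x ∈ p.V.1 := fun x => by rw [← hW]; rfl
  let u : I → J → L := fun q j => A.nrm ((ξ.map α).x q) j / α (n q j)
  have hu : ∀ q j, W.v (u q j) = 1 := fun q j => by
    have h1 := v_nrm A ((ξ.map α).x q) j
    rw [show (ξ.map α).x q = (ξ.x q).map α from rfl, pt_map, ln, ← pb_mxf, pb, val_mp_gen, hW,
      ← map_mul] at h1
    rw [← h1]
    simp only [u, hn, Cfg.nrm, map_inv₀, div_inv_eq_mul]
    rfl
  have huO : ∀ q j, u q j ∈ (rd W).O := fun q j => RZ.le_one_iff.1 (hu q j).le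
  have hun : ∀ q j, u q j * α (n q j) = A.nrm ((ξ.map α).x q) j := fun q j =>
    div_mul_cancel₀ _ ((map_ne_zero α).2 (hn0 q j))
  let c : I → J → ResidueField W.1 := fun q j => (rd W).p (u q j)
  have hc : ∀ q j, c q j ≠ 0 := fun q j => (rd W).p_ne_zero (hu q j)
  have hV : ∀ κ : J → ℕ, (∀ j, κ j ≤ N) →
      (((ξ.cfg.red p).map β').gau c).V κ ≤
        (A.T.Sec κ).map (vals A.T (fun q => A.sp ((ξ.map α).x q)) κ) := by
    intro κ hκ
    refine Submodule.map_le_iff_le_comap.2 (mapS_redS_le β' ?_)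
    rintro _ ⟨_, ⟨σ, hσ, rfl⟩, rfl⟩ hi
    have hσ' : (σ.map (α : K →+* L)).natDegree ≤ dot κ d :=
      natDegree_map_le.trans (natDegree_le_of_degree_le (mem_degreeLE.1 hσ))
    have hi' : ∀ q, (∏ j, n q j ^ κ j) * hv (dot κ d) σ (ξ.x q) ∈ p.V.1 := hi
    have hU : ∀ q, (∏ j, u q j ^ κ j) ∈ (rd W).O := fun q =>
      prod_mem fun j _ => pow_mem (huO q j) _
    have e : ∀ q, A.nv κ (σ.map (α : K →+* L)) ((ξ.map α).x q) =
        (∏ j, u q j ^ κ j) * α ((∏ j, n q j ^ κ j) * hv (dot κ d) σ (ξ.x q)) := fun q => by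
      rw [Red.nv, map_mul, map_prod, ← mul_assoc, ← Finset.prod_mul_distrib]
      congr 1
      · exact Finset.prod_congr rfl fun j _ => by rw [map_pow, ← mul_pow, hun]
      · exact hv_map (α : K →+* L) _ _ _
    obtain ⟨s, hs, hs'⟩ := A.exists_sec hσ' fun t => (nv_mem_iff A κ _ t).2
      (h κ hκ L α W hW _ hσ' (fun q => (nv_mem_iff A κ _ _).1
        (e q ▸ mul_mem (hU q) ((hmem _).2 (hi' q)))) t)
    refine ⟨s, hs, _root_.funext fun q => ?_⟩
    refine (hs' _).symm.trans ?_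
    rw [e, (rd W).p_mul (hU q) ((hmem _).2 (hi' q)), hβ _ (hi' q),
      (rd W).p_prod _ _ fun j _ => pow_mem (huO q j) _]
    simp only [(rd W).p_pow (huO q _)]
    rfl
  have hfr : ∀ κ : J → ℕ, (∀ j, κ j ≤ N) →
      Module.finrank (ResidueField W.1) ((((ξ.cfg.red p).map β').gau c).V κ) =
        Module.finrank (ResidueField W.1) (A.T.Sec κ) := by
    intro κ hκ
    rw [finrank_sec κ A.ok, A.deg, ← hi κ hκ]
    exact (finrank_sclS (fun q => Finset.prod_ne_zero_iff.2 fun j _ => pow_ne_zero _ (hc q j))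
      _).trans ((finrank_mapS β' _).trans ((finrank_redS p _).trans (finrank_sclS
        (fun q => Finset.prod_ne_zero_iff.2 fun j _ => pow_ne_zero _ (hn0 q j)) _)))
  have hE : ∀ κ : J → ℕ, (∀ j, κ j ≤ N) → (((ξ.cfg.red p).map β').gau c).V κ =
      (A.T.Sec κ).map (vals A.T (fun q => A.sp ((ξ.map α).x q)) κ) := fun κ hκ => by
    have := finite_sec κ A.T
    exact Submodule.eq_of_le_of_finrank_le (hV κ hκ)
      ((Submodule.finrank_map_le _ _).trans (hfr κ hκ).ge)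
  refine ⟨_, inferInstance, inferInstance, this, ⟨{
    α := β'
    t := A.T
    sp := fun q => A.sp ((ξ.map α).x q)
    c := c
    ok := A.ok
    deg := A.deg
    c_ne := hc
    y_eq := fun q => _root_.funext fun j => _root_.funext fun i => ?_
    V_eq := hE
    nrm := fun κ hκ s hs h0 => ?_ }⟩⟩
  · have h1 : n q j * ξ.pt (ξ.x q) j i ∈ p.V.1 := by
      rw [hn, Cfg.nrm, inv_mul_eq_div]
      exact (RZ.le_iff (gen_ne _ _)).1 (v_gen _ p.V ▸ mem_Sec_mxf _ i p.V)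
    rw [← A.ev_sp, ← hun, mul_assoc]
    refine ((congrArg (c q j * ·) (hβ _ h1)).symm.trans
      ((rd W).p_mul (huO q j) ((hmem _).2 h1)).symm).trans ?_
    rw [map_mul]
    exact congrArg (fun z => (rd W).p (u q j * (α (n q j) * z)))
      (hv_map (α : K →+* L) _ _ _).symm
  · have := finite_sec κ A.T
    exact inj_of_finrank _ _ (by rw [← hE κ hκ, hfr κ hκ]) s hs
      (_root_.funext fun q => h0 _ ⟨q, rfl⟩)

theorem finrank_of_inj {ξ : Dat io d I K} {κ : J → ℕ}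
    (h : ∀ σ : K[X], σ.natDegree ≤ dot κ d → (∀ q, hv (dot κ d) σ (ξ.x q) = 0) → σ = 0) :
    Module.finrank K (ξ.cfg.V κ) = dot κ d + 1 := by
  refine (finrank_map_of_inj _ _ fun σ hσ h0 =>
    h σ (natDegree_le_of_degree_le (mem_degreeLE.1 hσ)) (congrFun h0)).trans ?_
  rw [← degreeLT_succ_eq_degreeLE, (degreeLTEquiv K _).finrank_eq, Module.finrank_fin_fun]

theorem exists_of_mem {P : Type} {p : Pl ℂ K ℂ E} (hs : Function.Surjective p.φ)
    {U : Submodule K (P → K)} {w : P → E} (hw : w ∈ redS p U) :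
    ∃ u ∈ U, (∀ x, u x ∈ p.V.1) ∧ w = fun x => p.r (u x) := by
  induction hw using Submodule.span_induction with
  | mem w hw => exact hw
  | zero => exact ⟨0, zero_mem _, fun _ => zero_mem _, by funext x; simp⟩
  | add a b _ _ ha hb =>
    obtain ⟨u, h1, h2, rfl⟩ := ha
    obtain ⟨u', h3, h4, rfl⟩ := hb
    exact ⟨u + u', add_mem h1 h3, fun x => add_mem (h2 x) (h4 x),
      _root_.funext fun x => (Pl.r_add (h2 x) (h4 x)).symm⟩
  | smul c a _ ha =>
    obtain ⟨u, h1, h2, rfl⟩ := ha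
    obtain ⟨c', rfl⟩ := hs c
    refine ⟨(c' : K) • u, U.smul_mem _ h1, fun x => mul_mem c'.2 (h2 x), _root_.funext fun x => ?_⟩
    change _ = p.r (c' * u x)
    rw [Pl.r_mul c'.2 (h2 x), Pl.r_coe]
    rfl

/-- the normalising factor of `O(κ)` at the point `y` -/
def ch (V : RZ ℂ K) (κ : J → ℕ) (y : Pnt io K) : K := ∏ j, ((ln y j).gen V)⁻¹ ^ κ j

theorem val_lw' (V : RZ ℂ K) (κ : J → ℕ) (y : Pnt io K) :
    (lw κ y).val V = ∏ j, (ln y j).val V ^ κ j := by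
  simp only [lw, val_sum, val_nsmul]

theorem v_ch (V : RZ ℂ K) (κ : J → ℕ) (y : Pnt io K) :
    V.v (ch V κ y) = ((lw κ y).val V)⁻¹ := by
  simp only [ch, val_lw', map_prod, map_pow, map_inv₀, v_gen, inv_pow, Finset.prod_inv_distrib]

theorem ch_ne (V : RZ ℂ K) (κ : J → ℕ) (y : Pnt io K) : ch V κ y ≠ 0 :=
  chr_ne' (fun _ => inv_ne_zero (gen_ne _ _)) κ

theorem ch_mem {V : RZ ℂ K} {κ : J → ℕ} {y : Pnt io K} {a : K} :
    ch V κ y * a ∈ V.1 ↔ V.v a ≤ (lw κ y).val V := by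
  rw [← RZ.le_one_iff, map_mul, v_ch, inv_mul_le_one₀ (val_pos _ _)]

theorem ch_lt {V : RZ ℂ K} {κ : J → ℕ} {y : Pnt io K} {a : K} :
    V.v (ch V κ y * a) < 1 ↔ V.v a < (lw κ y).val V := by
  rw [map_mul, v_ch, inv_mul_lt_one₀ (val_pos _ _)]

theorem ch_add (V : RZ ℂ K) (κ κ' : J → ℕ) (y : Pnt io K) :
    ch V (κ + κ') y = ch V κ y * ch V κ' y := by
  simp only [ch, Pi.add_apply, pow_add, Finset.prod_mul_distrib]

theorem val_lw_add (V : RZ ℂ K) (κ κ' : J → ℕ) (y : Pnt io K) :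
    (lw (κ + κ') y).val V = (lw κ y).val V * (lw κ' y).val V := by
  simp only [val_lw', Pi.add_apply, pow_add, Finset.prod_mul_distrib]

theorem dot_add' (κ κ' d : J → ℕ) : dot (κ + κ') d = dot κ d + dot κ' d := by
  simp only [dot, Pi.add_apply, add_mul, Finset.sum_add_distrib]

/-- the elements of the reduced spaces -/
theorem mem_red_iff [Fintype I] {ξ : Dat io d I K} {p : Pl ℂ K ℂ E} (hs : Function.Surjective p.φ)
    {κ : J → ℕ} {u : I → E} : u ∈ (ξ.cfg.red p).V κ ↔ ∃ σ : K[X], σ.natDegree ≤ dot κ d ∧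
      (∀ q, p.V.v (hv (dot κ d) σ (ξ.x q)) ≤ (lw κ (ξ.pt (ξ.x q))).val p.V) ∧
      ∀ q, u q = p.r (ch p.V κ (ξ.pt (ξ.x q)) * hv (dot κ d) σ (ξ.x q)) := by
  constructor
  · intro hu
    obtain ⟨_, ⟨_, ⟨σ, hσ, rfl⟩, rfl⟩, h1, rfl⟩ := exists_of_mem hs hu
    exact ⟨σ, natDegree_le_of_degree_le (mem_degreeLE.1 hσ), fun q => ch_mem.1 (h1 q), fun _ => rfl⟩
  · rintro ⟨σ, h1, h2, h3⟩
    rw [show u = _ from _root_.funext h3]
    exact red_mem_redS (u := fun q => ch p.V κ (ξ.pt (ξ.x q)) * hv (dot κ d) σ (ξ.x q))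
      ⟨_, ⟨σ, mem_degreeLE.2 (degree_le_of_natDegree_le h1), rfl⟩, rfl⟩ fun q => ch_mem.2 (h2 q)

theorem dat_map_id (ξ : Dat io d I K) : ξ.map (AlgHom.id ℂ K) = ξ := by
  obtain ⟨f, x, h⟩ := ξ
  simp only [Dat.map, AlgHom.coe_id, Option.map_id, id_eq, Dat.mk.injEq, and_true]
  exact _root_.funext fun j => _root_.funext fun i => Polynomial.map_id

theorem nrm_map' {ξ : Dat io d I K} {κ : J → ℕ} (h : ξ.Nrm κ) (θ : K →ₐ[ℂ] E) :
    (ξ.map θ).Nrm κ := fun L _ _ α W σ hσ => by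
  rw [dat_map_map]; exact h L _ W σ hσ

section spread

variable {L : Type} [Field L] [Algebra ℂ L] {ξ : Dat io d I K} {κ : J → ℕ} {σ : K[X]}

theorem le_of_nrm (h : ξ.Nrm κ) (α : K →ₐ[ℂ] L) (W : RZ ℂ L) {V : RZ ℂ K}
    (hW : cm (α : K →+* L) (alg_ov α) W = V) (hσ : σ.natDegree ≤ dot κ d)
    (hq : ∀ q, V.v (hv (dot κ d) σ (ξ.x q)) ≤ (lw κ (ξ.pt (ξ.x q))).val V) (t : Option L) :
    W.v (hv (dot κ d) (σ.map (α : K →+* L)) t) ≤ (lw κ ((ξ.map α).pt t)).val W := by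
  subst hW
  refine h L α W _ (natDegree_map_le.trans hσ) (fun q => ?_) t
  rw [show (ξ.map α).x q = (ξ.x q).map α from rfl, pt_map, lw_map,
    show (ξ.x q).map α = (ξ.x q).map (α : K →+* L) from rfl, hv_map]
  exact v_le_val_mp.2 (hq q)

theorem lt_of_nrm [Finite I] (h : ξ.Nrm κ) (α : K →ₐ[ℂ] L) (W : RZ ℂ L) {V : RZ ℂ K}
    (hW : cm (α : K →+* L) (alg_ov α) W = V) (hσ : σ.natDegree ≤ dot κ d)
    (hq : ∀ q, V.v (hv (dot κ d) σ (ξ.x q)) < (lw κ (ξ.pt (ξ.x q))).val V) (t : Option L) :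
    W.v (hv (dot κ d) (σ.map (α : K →+* L)) t) < (lw κ ((ξ.map α).pt t)).val W := by
  by_cases h0 : (fun q => ch V κ (ξ.pt (ξ.x q)) * hv (dot κ d) σ (ξ.x q)) = 0
  · rw [nrm_inj h hσ fun q => (mul_eq_zero.1 (congrFun h0 q)).resolve_left (ch_ne V κ _), Polynomial.map_zero, hv_zero, map_zero]
    exact val_pos _ _
  obtain ⟨q₀, h1, h2⟩ := exists_prim V h0
  set r := ch V κ (ξ.pt (ξ.x q₀)) * hv (dot κ d) σ (ξ.x q₀)
  have h3 := le_of_nrm h α W hW (σ := C r⁻¹ * σ) ((natDegree_C_mul_le _ _).trans hσ)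
    (fun q => ch_mem.1 (by rw [hv_C_mul, mul_left_comm]; exact h2 q)) t
  have h4 : W.v (α r) < 1 := by
    have := (v_cm_lt_iff (α : K →+* L) (alg_ov α) (W := W) (x := r) (y := 1)).1
      (by rw [hW, map_one]; exact ch_lt.2 (hq q₀))
    simpa using this
  have h5 : 0 < W.v (α r) := RZ.pos ((map_ne_zero α).2 h1)
  rw [Polynomial.map_mul, map_C, hv_C_mul, map_mul, map_inv₀, map_inv₀] at h3
  exact ((inv_mul_le_iff₀ h5).1 h3).trans_lt (mul_lt_of_lt_one_left (val_pos _ _) h4)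

end spread

theorem hv_prod {R ι : Type*} [CommRing R] (s : Finset ι) {n : ι → ℕ} {f : ι → R[X]}
    (hf : ∀ i, (f i).natDegree ≤ n i) : (∏ i ∈ s, f i).natDegree ≤ ∑ i ∈ s, n i ∧
      ∀ t, hv (∑ i ∈ s, n i) (∏ i ∈ s, f i) t = ∏ i ∈ s, hv (n i) (f i) t := by
  classical
  induction s using Finset.induction_on with
  | empty => exact ⟨by simp, fun t => by cases t <;> simp⟩
  | insert a s ha ih =>
    simp only [Finset.sum_insert ha, Finset.prod_insert ha]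
    exact ⟨natDegree_mul_le.trans (add_le_add (hf a) ih.1), fun t => by
      rw [hv_mul (hf a) ih.1, ih.2]⟩

theorem hv_mono {R : Type*} [CommRing R] {f : J → R[X]} (hf : ∀ j, (f j).natDegree ≤ d j)
    (κ : J → ℕ) : (∏ j, f j ^ κ j).natDegree ≤ dot κ d ∧
      ∀ t, hv (dot κ d) (∏ j, f j ^ κ j) t = ∏ j, hv (d j) (f j) t ^ κ j := by
  have h1 : ∀ j, (f j ^ κ j).natDegree ≤ κ j * d j ∧
      ∀ t, hv (κ j * d j) (f j ^ κ j) t = hv (d j) (f j) t ^ κ j := fun j => by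
    simpa using hv_prod (Finset.range (κ j)) (n := fun _ => d j) (f := fun _ => f j) fun _ => hf j
  have h2 := hv_prod Finset.univ fun j => (h1 j).1
  exact ⟨h2.1, fun t => (h2.2 t).trans (Finset.prod_congr rfl fun j _ => (h1 j).2 t)⟩

/-- a monomial in the coordinates generates `O(κ)` at a given point -/
theorem exists_mono {L : Type} [Field L] [Algebra ℂ L] (ξ : Dat io d I K) (κ : J → ℕ)
    (α : K →ₐ[ℂ] L) (W : RZ ℂ L) (t : Option L) : ∃ σ : K[X], σ.natDegree ≤ dot κ d ∧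
      (∀ (V : RZ ℂ K) u, V.v (hv (dot κ d) σ u) ≤ (lw κ (ξ.pt u)).val V) ∧
      W.v (hv (dot κ d) (σ.map (α : K →+* L)) t) = (lw κ ((ξ.map α).pt t)).val W := by
  choose i hi using fun j => exists_val_mxf (k := ℂ) (nz_pt (ξ.map α) t j) W
  have h1 := hv_mono (f := fun j => ξ.f j (i j)) (fun j => ξ.cp.1 j _) κ
  have h2 := hv_mono (f := fun j => (ξ.map α).f j (i j)) (fun j => (ξ.map α).cp.1 j _) κ
  refine ⟨_, h1.1, fun V u => ?_, ?_⟩
  · rw [h1.2, val_lw', map_prod]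
    exact Finset.prod_le_prod' fun j _ => by
      rw [map_pow]; exact pow_le_pow_left' (mem_Sec_mxf (ξ.pt u j) (i j) V) _
  · rw [Polynomial.map_prod]
    simp only [Polynomial.map_pow]
    refine (congrArg W.v (h2.2 t)).trans ?_
    rw [val_lw', map_prod]
    exact Finset.prod_congr rfl fun j _ => by rw [map_pow]; exact congrArg (· ^ κ j) (hi j)

theorem exists_rt (α : K →ₐ[ℂ] E) {a : E} (ha : a ≠ 0) : ∃ l : E →+ K, IsRt α l ∧ l a ≠ 0 := by
  let _ : Algebra K E := (α : K →+* E).toAlgebra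
  obtain ⟨l, hl⟩ := Module.Projective.exists_dual_eq_one K ha
  exact ⟨l.toAddMonoidHom, fun a y => l.map_smul a y, hl.trans_ne one_ne_zero⟩

end Crest.Agent.X262.Emb96
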