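import Crest.Agent.X262.Emb96.Cor

/-!
# Row 262, EMB, lifting (helper96), part 4: the auxiliary datum

`mnD` (forget the auxiliary factors), `aux` (one coordinate for every triple of distinct points),
`exists_aux` (normed auxiliary data exist over a finite extension).
-/

set_option autoImplicit false
set_option linter.unusedSectionVars false

noncomputable section

namespace Crest.Agent.X262.Emb96

open Polynomial Crest.Agent.X277 Crest.Agent.X277.BD Crest.Agent.X262.Vb
open Crest.Agent.X262.Bub96 Crest.Agent.X262.Bub96.Tr Crest.Agent.X262.Tree87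

variable {J : Type} [Fintype J] [DecidableEq J] {io : J → Type} [∀ j, Fintype (io j)]
  [∀ j, DecidableEq (io j)] {d : J → ℕ} {I : Type}
  {K E : Type} [Field K] [Algebra ℂ K] [Field E] [Algebra ℂ E]

section mn

variable {P : Type} [Fintype P] [DecidableEq P]

/-- forget the auxiliary factors -/
def mnD (ξ : Dat (ioP io P) (dP d P) I K) : Dat io d I K where
  f j := ξ.f (Sum.inl j)
  x := ξ.x
  cp := ⟨fun j => ξ.cp.1 (Sum.inl j), fun j => ξ.cp.2.1 (Sum.inl j), fun j => ξ.cp.2.2 (Sum.inl j)⟩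

theorem val_lw_elim (V : RZ ℂ K) (κ : J → ℕ) (κ' : P → ℕ) (y : Pnt (ioP io P) K) :
    (lw (Sum.elim κ κ') y).val V =
      (lw κ (mn y)).val V * ∏ x, (ln y (Sum.inr x)).val V ^ κ' x := by
  rw [val_lw', val_lw', Fintype.prod_sum_type]; rfl

theorem dot_dP (κ : J → ℕ) (κ' : P → ℕ) : dot (Sum.elim κ κ') (dP d P) = dot κ d + ∑ x, κ' x := by
  rw [dot_elim]; simp [dP]

theorem nrm_mnD {ξ : Dat (ioP io P) (dP d P) I K} {κ : J → ℕ} :
    (mnD ξ).Nrm κ ↔ ξ.Nrm (Sum.elim κ 0) := by
  simp only [Dat.Nrm, dot_dP, val_lw_elim, Pi.zero_apply, pow_zero, Finset.prod_const_one, mul_one,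
    Finset.sum_const_zero, add_zero]
  rfl

end mn

/-- triples of distinct points -/
abbrev Tp (ξ : Dat io d I K) : Type := {a : Fin 3 → I // ∀ l l', l < l' → ξ.x (a l) ≠ ξ.x (a l')}

/-- the coordinate with values `0, ∞, 1` at the points `u, v, w` -/
def crd (u v w : Option K) : Fin 2 → K[X] := ![C (hv 1 (lin v) w) * lin u, C (hv 1 (lin u) w) * lin v]

omit [Algebra ℂ K] [Algebra ℂ E] in
theorem lin_map (γ : K →+* E) (u : Option K) : (lin u).map γ = lin (u.map γ) := by
  rcases u with _ | u <;> simp [lin]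

omit [Algebra ℂ K] [Algebra ℂ E] in
theorem crd_ne (γ : K →+* E) {u v w : Option K} (h1 : u ≠ v) (h2 : u ≠ w) (h3 : v ≠ w)
    (t : Option E) : ∃ i, hv 1 ((crd u v w i).map γ) t ≠ 0 := by
  by_contra hc
  push Not at hc
  have e0 := hc 0
  have e1 := hc 1
  simp only [crd, Matrix.cons_val_zero, Matrix.cons_val_one, Polynomial.map_mul, map_C, hv_C_mul,
    lin_map, mul_eq_zero, map_eq_zero, hv_lin] at e0 e1
  exact h1 (Option.map_injective γ.injective
    ((e0.resolve_left h3.symm).symm.trans (e1.resolve_left h2.symm)))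

/-- one coordinate for every triple of distinct points -/
def aux (ξ : Dat io d I K) : Dat (ioP io (Tp ξ)) (dP d (Tp ξ)) I K where
  f := fun
    | Sum.inl j => ξ.f j
    | Sum.inr a => crd (ξ.x (a.1 0)) (ξ.x (a.1 1)) (ξ.x (a.1 2))
  x := ξ.x
  cp := by
    have h := fun {E : Type} [Field E] (γ : K →+* E) (a : Tp ξ) =>
      crd_ne γ (a.2 0 1 (by decide)) (a.2 0 2 (by decide)) (a.2 1 2 (by decide))
    refine ⟨?_, ?_, ?_⟩ <;> rintro (j | a)
    · exact ξ.cp.1 j
    · exact Fin.forall_fin_two.2 ⟨(natDegree_C_mul_le _ _).trans (natDegree_lin _),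
        (natDegree_C_mul_le _ _).trans (natDegree_lin _)⟩
    · exact ξ.cp.2.1 j
    · have := h (RingHom.id K) a none
      simp only [Polynomial.map_id] at this
      exact this
    · exact ξ.cp.2.2 j
    · exact span_eq_top (ι := Fin 2) (algebraMap K (AlgebraicClosure K)) fun x => h _ a (some x)

theorem aux_aux [Fintype I] {I' : Type} {ξ : Dat io d I K} [Fintype (Tp ξ)] [DecidableEq (Tp ξ)]
    {η : Dat (ioP io (Tp ξ)) (dP d (Tp ξ)) I' E} {g : I → I'} {θ : K →ₐ[ℂ] E}
    (h : η.res g = (aux ξ).map θ) : Aux η g := by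
  intro a ha
  have hx : ∀ q, η.x (g q) = (ξ.x q).map θ := fun q => congrFun (congrArg Dat.x h) q
  have hp : ∀ q x i, ax (η.pt (η.x (g q))) x i = θ (ax ((aux ξ).pt (ξ.x q)) x i) := fun q x i => by
    rw [show η.pt = ((aux ξ).map θ).pt from congrArg Dat.pt h, hx, pt_map]; rfl
  refine ⟨⟨a, fun l l' hl e => ha l l' hl (by rw [hx, hx, e])⟩, ?_, ?_, ?_⟩
  · rw [hp, map_eq_zero]
    exact (hv_C_mul _ _ _ _).trans (mul_eq_zero_of_right _ ((hv_lin _ _).2 rfl))
  · rw [hp, map_eq_zero]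
    exact (hv_C_mul _ _ _ _).trans (mul_eq_zero_of_right _ ((hv_lin _ _).2 rfl))
  · rw [hp, hp]
    exact congrArg θ ((hv_C_mul _ _ _ _).trans ((mul_comm _ _).trans (hv_C_mul _ _ _ _).symm))

/-- normed auxiliary data exist over a finite extension -/
theorem exists_aux {M : Type} [Fintype M] (ξ : Dat io d M K) (N : ℕ) :
    ∃ (L : Type) (_ : Field L) (_ : Algebra ℂ L) (_ : Algebra K L) (_ : IsScalarTower ℂ K L)
      (_ : FiniteDimensional K L) (P I I₀ : Type) (_ : Fintype P) (_ : DecidableEq P)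
      (_ : Fintype I) (_ : Fintype I₀) (g : I₀ → I) (m : M → I)
      (η : Dat (ioP io P) (dP d P) I L), (mnD η).res m = ξ.map (IsScalarTower.toAlgHom ℂ K L) ∧
      η.NrmUp N ∧ (η.res g).Nrm (k2 J P) ∧ Aux η g := by
  classical
  obtain ⟨K₁, _, _, _, _, _, n₁, η₁, a1, a2⟩ := exists_nrm ξ 2
  obtain ⟨L, _, _, _, _, _, n, η, b1, b2⟩ := exists_nrm (aux η₁) N
  let _ : Algebra K L := ((algebraMap K₁ L).comp (algebraMap K K₁)).toAlgebra
  have : IsScalarTower K K₁ L := IsScalarTower.of_algebraMap_eq fun _ => rfl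
  have : IsScalarTower ℂ K L := IsScalarTower.of_algebraMap_eq fun c => by
    rw [IsScalarTower.algebraMap_apply ℂ K₁ L, IsScalarTower.algebraMap_apply ℂ K K₁]; rfl
  refine ⟨L, inferInstance, inferInstance, inferInstance, inferInstance, Module.Finite.trans K₁ L,
    Tp η₁, _, _, inferInstance, inferInstance, inferInstance, inferInstance, Sum.inl,
    fun q => Sum.inl (Sum.inl q), η, ?_, b2, ?_, aux_aux b1⟩
  · have h1 : (mnD η).res Sum.inl = η₁.map (IsScalarTower.toAlgHom ℂ K₁ L) := congrArg mnD b1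
    have h2 := congrArg (Dat.map (IsScalarTower.toAlgHom ℂ K₁ L)) a1
    rw [dat_map_map] at h2
    exact (congrArg (Dat.res Sum.inl) h1).trans h2
  · rw [b1]
    have h1 : (mnD (aux η₁)).Nrm fun _ => 2 := a2 _ fun _ => le_rfl
    exact nrm_map' (nrm_mnD.1 h1) _

end Crest.Agent.X262.Emb96
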