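import Crest.Agent.X262.Emb96.Loc

/-!
# Row 262, EMB, lifting (helper96), part 3: the lift of a map which is given in charts

`ioP`, `dP` : auxiliary factors of degree one; `cfg_lift` (on tree-like configurations),
`exists_lift` (for data at a place).
-/

set_option autoImplicit false
set_option linter.unusedSectionVars false

noncomputable section

namespace Crest.Agent.X262.Emb96

open Polynomial Crest.Agent.X277 Crest.Agent.X277.BD Crest.Agent.X262.Vb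
open Crest.Agent.X262.Bub96 Crest.Agent.X262.Bub96.Tr Crest.Agent.X262.Tree87

variable {J : Type} [Fintype J] [DecidableEq J] {io : J → Type} [∀ j, Fintype (io j)]
  [∀ j, DecidableEq (io j)] {d : J → ℕ} {I : Type} [Fintype I]
  {K E : Type} [Field K] [Algebra ℂ K] [Field E] [Algebra ℂ E]

theorem isS_of_ev {k : Type*} [Field k] {J : Type*} {io : J → Type*} (φ : ((j : J) → io j → k) → k) :
    {T : Tr k J io} → T.OK → {δ : T.Vx → ℕ} → {s : T.Vx → k[X]} → (∀ a, (s a).natDegree ≤ δ a) →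
    (∀ x, vl T δ s x = φ (T.ev x)) → IsS T δ s
  | leaf _ _, _, _, _, h, _ => h ()
  | glue T p S, hT, _, _, h, h' =>
    ⟨isS_of_ev φ hT.1 (fun a => h (Sum.inl a)) fun x => h' (Sum.inl x.1, x.2),
      isS_of_ev φ hT.2.1 (fun a => h (Sum.inr a)) fun x => h' (Sum.inr x.1, x.2),
      (h' (Sum.inr S.root, none)).trans ((congrArg φ (ev_node hT)).trans
        (h' (Sum.inl T.root, some p)).symm)⟩

section TD

variable {N : ℕ} {z : Cfg io I E} {k : Type} [Field k] [Algebra ℂ k] (D : TD d N z k) {κ : J → ℕ}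

/-- degrees of `O(κ)` on the vertices -/
abbrev dg (κ : J → ℕ) : D.t.Vx → ℕ := fun a => dot κ (D.t.vd a)

/-- the gauge factor -/
abbrev cf (κ : J → ℕ) (q : I) : k := ∏ j, D.c q j ^ κ j

theorem cf_ne (κ : J → ℕ) (q : I) : cf D κ q ≠ 0 := chr_ne' (D.c_ne q) κ

theorem mem_iff (hκ : ∀ j, κ j ≤ N) {u : I → k} : u ∈ mapS D.α (z.V κ) ↔
    ∃ s, IsS D.t (dg D κ) s ∧ ∀ q, vl D.t (dg D κ) s (D.sp q) = cf D κ q * u q := by
  rw [← mul_mem_sclS_iff (c := cf D κ) (cf_ne D κ)]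
  exact (D.mem_V hκ).trans (exists_congr fun s => and_congr (isS_iff κ _ s).symm Iff.rfl)

theorem desc (hκ : ∀ j, κ j ≤ N) {s : D.t.Vx → k[X]} (hs : IsS D.t (dg D κ) s) {l : k →+ E}
    (hl : IsRt D.α l) : (fun q => l ((cf D κ q)⁻¹ * vl D.t (dg D κ) s (D.sp q))) ∈ z.V κ :=
  (mem_mapS_iff D.α).1 ((mem_iff D hκ).2
    ⟨s, hs, fun q => (mul_inv_cancel_left₀ (cf_ne D κ q) _).symm⟩) l hl

theorem eq_zero (hκ : ∀ j, κ j ≤ N) {s : D.t.Vx → k[X]} (hs : IsS D.t (dg D κ) s)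
    (h : ∀ q, vl D.t (dg D κ) s (D.sp q) = 0) : s = 0 := D.eq_zero hκ ((isS_iff κ _ s).1 hs) h

/-- descent of a tuple without common zero whose direction at the points is rational -/
theorem desc_tuple [IsAlgClosed k] {ι : Type} [Fintype ι] (hκ : ∀ j, (κ + κ) j ≤ N)
    {s : ι → D.t.Vx → k[X]} (hs : ∀ i, IsS D.t (dg D κ) (s i))
    (h0 : ∀ x, ∃ i, vl D.t (dg D κ) (s i) x ≠ 0) {w : I → ι → E} (hw : ∀ q, ∃ i, w q i ≠ 0)
    (hsw : ∀ q, Wd (fun i => vl D.t (dg D κ) (s i) (D.sp q)) fun i => D.α (w q i)) :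
    ∃ u : ι → I → E, (∀ i, u i ∈ z.V κ) ∧ (∀ q, ∃ i, u i q ≠ 0) ∧
      (∀ q, Wd (fun i => u i q) (w q)) ∧ ∀ σ ∈ z.V (κ + κ), ∃ τ : ι → I → E,
        (∀ i, τ i ∈ z.V κ) ∧ ∀ q, ∑ i, τ i q * u i q = σ q := by
  classical
  have hκ' : ∀ j, κ j ≤ N := fun j => le_trans (Nat.le_add_right _ _) (hκ j)
  have e2 : dg D (κ + κ) = fun a => dg D κ a + dg D κ a := _root_.funext fun a => dot_add' _ _ _
  have c2 : ∀ q, cf D (κ + κ) q = cf D κ q * cf D κ q := fun q => by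
    simp only [cf, Pi.add_apply, pow_add, Finset.prod_mul_distrib]
  obtain ⟨i₀, hi₀⟩ := h0 (D.t.root, none)
  obtain ⟨q₀, hq₀⟩ : ∃ q, vl D.t (dg D κ) (s i₀) (D.sp q) ≠ 0 := by
    by_contra hc
    push Not at hc
    exact hi₀ (by rw [eq_zero D hκ' (hs i₀) hc]; exact hv_zero _ _)
  obtain ⟨l, hl, hl0⟩ := exists_rt D.α (mul_ne_zero (inv_ne_zero (cf_ne D κ q₀)) hq₀)
  let u : ι → I → E := fun i q => l ((cf D κ q)⁻¹ * vl D.t (dg D κ) (s i) (D.sp q))
  have hu : ∀ i, u i ∈ z.V κ := fun i => desc D hκ' (hs i) hl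
  have huw : ∀ q, Wd (fun i => u i q) (w q) := fun q i i' => by
    simp only [u]
    rw [mul_comm, ← hl, mul_comm _ (w q i), ← hl, mul_left_comm, mul_left_comm (D.α _),
      mul_comm (D.α _), mul_comm (D.α _), hsw q i i']
  choose s' hs' hv' using fun i => (mem_iff D hκ').1 (map_mem_mapS D.α (hu i))
  have h1 : ∀ q, Wd (fun i => vl D.t (dg D κ) (s' i) (D.sp q))
      fun i => vl D.t (dg D κ) (s i) (D.sp q) := fun q => by
    refine Wd.trans (fun i i' => ?_) (hsw q) ((hw q).imp fun i hi => (map_ne_zero D.α).2 hi)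
    simp only [hv', mul_assoc, ← map_mul, huw q i i']
  have h2 : ∀ a, Wd (fun i => s' i a) fun i => s i a := fun a i i' => by
    have h3 := ((hs' i).mul (hs i')).add (((hs' i').mul (hs i)).smul (-1))
    rw [← e2] at h3
    have h4 := congrFun (eq_zero D hκ h3 fun q => by
      rw [e2, vl, hv_add, hv_C_mul, hv_mul ((hs' _).le _) ((hs _).le _),
        hv_mul ((hs' _).le _) ((hs _).le _), neg_one_mul, add_neg_eq_zero]
      exact h1 q i i') a
    simpa [add_neg_eq_zero] using h4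
  obtain ⟨μ, hμ⟩ := prop D.t _ s s' hs hs' h0 h2
  have h5 : ∀ i x, vl D.t (dg D κ) (s' i) x = μ * vl D.t (dg D κ) (s i) x := fun i x => by
    rw [vl, hμ, hv_C_mul, vl]
  have hμ0 : μ ≠ 0 := fun h => mul_ne_zero (cf_ne D κ q₀) ((map_ne_zero D.α).2 hl0)
    ((hv' i₀ q₀).symm.trans (by rw [h5, h, zero_mul]))
  have h6 : ∀ x, ∃ i, vl D.t (dg D κ) (s' i) x ≠ 0 := fun x =>
    (h0 x).imp fun i hi => h5 i x ▸ mul_ne_zero hμ0 hi
  refine ⟨u, hu, fun q => (h6 (D.sp q)).imp fun i hi h => hi (by rw [hv', h, map_zero, mul_zero]),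
    huw, fun σ hσ => ?_⟩
  obtain ⟨σ', h7, h8⟩ := (mem_iff D hκ).1 (map_mem_mapS D.α hσ)
  rw [e2] at h7 h8
  obtain ⟨i₁, hi₁⟩ := h6 (D.t.root, none)
  obtain ⟨τ, h9, h10, -⟩ := surj D.t _ s' hs' h6 σ' h7 (Pi.single i₁
      (vl D.t _ σ' (D.t.root, none) / vl D.t (dg D κ) (s' i₁) (D.t.root, none))) (by
    rw [Finset.sum_eq_single i₁ (fun i _ hi => by rw [Pi.single_eq_of_ne hi, zero_mul]) (by simp),
      Pi.single_eq_same, div_mul_cancel₀ _ hi₁])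
  obtain ⟨l', hl', hl1⟩ := exists_isRt D.α
  refine ⟨_, fun i => desc D hκ' (h9 i) hl', fun q => ?_⟩
  have h11 : ∑ i, D.α (u i q) * ((cf D κ q)⁻¹ * vl D.t (dg D κ) (τ i) (D.sp q)) = D.α (σ q) * 1 := by
    refine mul_left_cancel₀ (cf_ne D (κ + κ) q) ?_
    rw [mul_one, ← h8, vl, ← h10, hv_sum, Finset.mul_sum]
    refine Finset.sum_congr rfl fun i _ => ?_
    rw [hv_mul ((h9 _).le _) ((hs' _).le _), c2]
    have := hv' i q
    rw [vl] at this
    rw [this, vl]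
    field_simp [cf_ne D κ q]
  have h12 := congrArg l' h11
  rw [map_sum, hl', hl1, mul_one] at h12
  rw [← h12]
  exact Finset.sum_congr rfl fun i _ => by rw [hl', mul_comm]

end TD

/-- auxiliary projective lines -/
def ioP (io : J → Type) (P : Type) : J ⊕ P → Type
  | Sum.inl j => io j
  | Sum.inr _ => Fin 2

variable {P : Type} [Fintype P] [DecidableEq P]

instance : ∀ x, Fintype (ioP io P x)
  | Sum.inl j => inferInstanceAs (Fintype (io j))
  | Sum.inr _ => inferInstanceAs (Fintype (Fin 2))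

instance : ∀ x, DecidableEq (ioP io P x)
  | Sum.inl j => inferInstanceAs (DecidableEq (io j))
  | Sum.inr _ => inferInstanceAs (DecidableEq (Fin 2))

/-- degree one on the auxiliary factors -/
def dP (d : J → ℕ) (P : Type) : J ⊕ P → ℕ := Sum.elim d fun _ => 1

/-- the main part of a point -/
def mn {R : Type} (y : Pnt (ioP io P) R) : Pnt io R := fun j => y (Sum.inl j)

/-- a coordinate of the auxiliary part of a point -/
def ax {R : Type} (y : Pnt (ioP io P) R) (p : P) (i : Fin 2) : R := y (Sum.inr p) i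

theorem dot_elim (κ : J → ℕ) (κ' : P → ℕ) (e : J ⊕ P → ℕ) : dot (Sum.elim κ κ') e =
    dot κ (fun j => e (Sum.inl j)) + ∑ p, κ' p * e (Sum.inr p) := by
  simp only [dot, Fintype.sum_sum_type, Sum.elim_inl, Sum.elim_inr]

theorem isS_sb {k : Type} [Field k] [Algebra ℂ k] {t : Tr k (J ⊕ P) (ioP io P)} (ht : t.OK)
    {Q : MvPolynomial (Vr io) ℂ} {κ : J → ℕ} (h : MH Q κ) :
    ∃ s, IsS t (fun a => dot (Sum.elim κ 0) (t.vd a)) s ∧
      ∀ x, vl t (fun a => dot (Sum.elim κ 0) (t.vd a)) s x = pv (mn (t.ev x)) Q := by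
  have h1 : ∀ v, (∑ j, (κ j : ℤ) * t.vd v (Sum.inl j)) = (dot (Sum.elim κ 0) (t.vd v) : ℕ) :=
    fun v => by rw [dot_elim]; simp [dot]
  have h2 := fun v => (MZ.of_MH h).sb (g := fun j => t.vg v (Sum.inl j))
    fun j => ht.natDegree_le v (Sum.inl j)
  simp only [h1] at h2
  have h3 : ∀ x, vl t (fun a => dot (Sum.elim κ 0) (t.vd a))
      (fun v => sb (fun j => t.vg v (Sum.inl j)) Q) x = pv (mn (t.ev x)) Q := fun x =>
    (ev_eq_hv _ _ _).symm.trans ((h2 x.1).2 x.2)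
  exact ⟨_, isS_of_ev (fun y => pv (mn y) Q) ht (fun v => DL_nat.1 (h2 v).1) h3, h3⟩

/-- a map which is given in charts on the target `T`, near the curves of degree `d` -/
structure Cht {A : Type} (T : Tgt io A) (d : J → ℕ) (Λ ι : Type) where
  /-- the degrees -/
  m : Λ → J → ℕ
  /-- the formulas -/
  q : Λ → ι → MvPolynomial (Vr io) ℂ
  hom : ∀ l a, MH (q l a) (m l)
  cov : ∀ (E : Type) [Field E] [Algebra ℂ E] [IsAlgClosed E] (t : Tr E J io), t.OK →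
    t.deg = d → (∀ x, T.On (t.ev x)) → ∀ x, ∃ l a, pv (t.ev x) (q l a) ≠ 0
  rk : ∀ (E : Type) [Field E] [Algebra ℂ E] (y : Pnt io E), NZ y → T.On y → ∀ l l',
    Wd (fun a => pv y (q l a)) fun a => pv y (q l' a)

/-- the multidegree used for finding three branches -/
def k2 (J P : Type) : J ⊕ P → ℕ := Sum.elim (fun _ => 2) 0

variable {A Λ ι : Type} [Fintype A] [Fintype Λ] [Fintype ι] {T : Tgt io A}

theorem cfg_lift (G : Cht T d Λ ι) {N : ℕ} {z : Cfg (ioP io P) I E} (h : TL (dP d P) N z)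
    (hT : ∀ q, T.On (mn (z.y q))) (hk : ∀ a j, T.k a j ≤ N) (hN : 2 ≤ N)
    (hN' : 2 * ∑ l, dot (G.m l) d ≤ N) {I₀ : Type} (g : I₀ → I)
    (hg : ∀ u ∈ z.V (k2 J P), (∀ a, u (g a) = 0) → u = 0)
    (hP : ∀ a : Fin 3 → I₀, (∀ l l', l < l' →
      ∃ u ∈ z.V (k2 J P), u (g (a l)) = 0 ∧ u (g (a l')) ≠ 0) → ∃ p, ax (z.y (g (a 0))) p 0 = 0 ∧
      ax (z.y (g (a 1))) p 1 = 0 ∧ ax (z.y (g (a 2))) p 0 = ax (z.y (g (a 2))) p 1) :
    ∃ (κ : P → ℕ) (u : ι → I → E), (∀ p, κ p ≤ ∑ l, dot (G.m l) d) ∧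
      (∀ i, u i ∈ z.V (Sum.elim 0 κ)) ∧ (∀ q, ∃ i, u i q ≠ 0) ∧
      (∀ q, ∃ l, (∃ i, pv (mn (z.y q)) (G.q l i) ≠ 0) ∧
        Wd (fun i => u i q) fun i => pv (mn (z.y q)) (G.q l i)) ∧
      ∀ σ ∈ z.V (Sum.elim (0 : J → ℕ) κ + Sum.elim (0 : J → ℕ) κ), ∃ τ : ι → I → E,
        (∀ i, τ i ∈ z.V (Sum.elim 0 κ)) ∧ ∀ q, ∑ i, τ i q * u i q = σ q := by
  classical
  obtain ⟨k, _, _, _, ⟨D⟩⟩ := h
  have hsp : ∀ {Q : MvPolynomial (Vr io) ℂ} {κ : J → ℕ}, MH Q κ → ∀ q, ∃ c : k, c ≠ 0 ∧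
      pv (mn (D.t.ev (D.sp q))) Q = c * D.α (pv (mn (z.y q)) Q) := fun {Q κ} hQ q => by
    refine ⟨∏ j, D.c q (Sum.inl j) ^ (κ j : ℤ),
      Finset.prod_ne_zero_iff.2 fun j _ => zpow_ne_zero _ (D.c_ne q _), ?_⟩
    rw [D.ev_sp, ← pv_map]
    exact (MZ.of_MH hQ).pv_scl (fun j => D.c_ne q (Sum.inl j)) _
  have hOn : ∀ x, T.On (mn (D.t.ev x)) := fun x a => by
    obtain ⟨s, h1, h2⟩ := isS_sb D.ok (T.hom a)
    rw [← h2, eq_zero D (κ := Sum.elim (T.k a) 0) (by rintro (j | p); exacts [hk a j, N.zero_le])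
      h1 fun q => ?_]
    · exact hv_zero _ _
    · obtain ⟨c, -, hc⟩ := hsp (T.hom a) q
      rw [h2, hc, hT q a, map_zero, mul_zero]
  have hcov : ∀ x, ∃ l i, pv (mn (D.t.ev x)) (G.q l i) ≠ 0 := fun x => by
    obtain ⟨t₀, a1, a2, -, -, a5, a6⟩ : ∃ t₀ : Tr k J io, t₀.OK ∧
        (t₀.deg = fun j => D.t.deg (Sum.inl j)) ∧ _ ∧ _ ∧ (∀ x, ∃ y, t₀.ev y = mn (D.t.ev x)) ∧
        ∀ y, ∃ x, t₀.ev y = mn (D.t.ev x) := exists_rs (Sum.inl : J → J ⊕ P) D.t D.ok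
    obtain ⟨y, hy⟩ := a5 x
    have := G.cov k t₀ a1 (by rw [a2, D.deg]; rfl)
      (fun y => (a6 y).elim fun x hx => by rw [hx]; exact hOn x) y
    rwa [hy] at this
  choose S hS hSv using fun l i => isS_sb D.ok (G.hom l i)
  obtain ⟨l₀, hl₀⟩ := hcov (D.t.root, none)
  have hrk : ∀ x l l', Wd (fun i => pv (mn (D.t.ev x)) (G.q l i))
      fun i => pv (mn (D.t.ev x)) (G.q l' i) := fun x =>
    G.rk k _ (fun j => D.ok.ev_ne x (Sum.inl j)) (hOn x)
  obtain ⟨δ, s, b1, b2, b3, b4, -⟩ := fact D.t _ S hS (by simpa only [hSv] using hcov)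
    (by simpa only [hSv] using hrk) _ hl₀ (by simpa only [hSv] using hrk _ l₀)
  have hk2 : ∀ j, k2 J P j ≤ N := by rintro (j | p); exacts [hN, N.zero_le]
  have key : ∀ a, ∃ w : P → ℕ, (∀ p, w p ≤ δ a) ∧
      ∀ b, ∑ p, w p * D.t.vd b (Sum.inr p) = if a = b then δ a else 0 := by
    intro a
    by_cases h0 : δ a = 0
    · exact ⟨0, fun _ => Nat.zero_le _, fun b => by simp [h0]⟩
    have h2 : 2 ≤ dg D (k2 J P) a := by
      obtain ⟨l, hl⟩ := b4 a
      rw [dot_elim] at hl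
      simp only [Pi.zero_apply, zero_mul, Finset.sum_const_zero, add_zero] at hl
      obtain ⟨j, -, hj⟩ := Finset.exists_ne_zero_of_sum_ne_zero
        (show dot (G.m l) (fun j => D.t.vd a (Sum.inl j)) ≠ 0 by omega)
      refine le_trans ?_ (Finset.single_le_sum (f := fun j => k2 J P j * D.t.vd a j)
        (fun _ _ => Nat.zero_le _) (Finset.mem_univ (Sum.inl j)))
      exact Nat.le_mul_of_pos_right _ (Nat.pos_of_ne_zero (right_ne_zero_of_mul hj))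
    obtain ⟨q, c1, c2⟩ := exists_three (fun b => D.sp (g b)) (fun σ hσ h => eq_zero D hk2 hσ
      fun q => by
        by_contra hq
        obtain ⟨l, hl, hl0⟩ := exists_rt D.α (mul_ne_zero (inv_ne_zero (cf_ne D (k2 J P) q)) hq)
        exact hl0 (congrFun (hg _ (desc D hk2 hσ hl) fun b => by
          rw [h b, mul_zero, map_zero]) q)) a h2
    obtain ⟨p, e0, e1, e2⟩ := hP q fun l l' hl => by
      obtain ⟨σ, d1, d2, d3⟩ := c2 l l' hl
      obtain ⟨r, hr, hr0⟩ := exists_rt D.α (mul_ne_zero (inv_ne_zero (cf_ne D (k2 J P) _)) d3)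
      exact ⟨_, desc D hk2 d1 hr, by rw [d2, mul_zero, map_zero], hr0⟩
    have f : ∀ b i, ax (D.t.ev (D.sp b)) p i = D.c b (Sum.inr p) * D.α (ax (z.y b) p i) :=
      fun b i => by rw [D.ev_sp]; rfl
    have f0 : ax (D.t.ev (D.sp (g (q 0)))) p 0 = 0 := by rw [f, e0, map_zero, mul_zero]
    have f1 : ax (D.t.ev (D.sp (g (q 1)))) p 1 = 0 := by rw [f, e1, map_zero, mul_zero]
    have f2 : ax (D.t.ev (D.sp (g (q 2)))) p 0 = ax (D.t.ev (D.sp (g (q 2)))) p 1 := by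
      rw [f, f, e2]
    have f3 : ∀ x, ax (D.t.ev x) p 0 = 0 → ax (D.t.ev x) p 1 = 0 → False := fun x u v =>
      (Fin.exists_fin_two (p := fun i => ax (D.t.ev x) p i ≠ 0)).1 (D.ok.ev_ne x (Sum.inr p))
        |>.elim (fun h => h u) fun h => h v
    have f4 : ∀ l l' : Fin 3, D.t.ev (D.sp (g (q l))) (Sum.inr p) =
        D.t.ev (D.sp (g (q l'))) (Sum.inr p) →
        ∀ i, ax (D.t.ev (D.sp (g (q l)))) p i = ax (D.t.ev (D.sp (g (q l')))) p i :=
      fun _ _ h i => congrFun h i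
    obtain ⟨g1, g2⟩ := vd_of_three D.ok (j := Sum.inr p) (by rw [D.deg]; rfl) a
      (fun l => D.sp (g (q l))) c1 fun l l' h => by
        have h' := f4 l l' h
        fin_cases l <;> fin_cases l' <;> first
          | rfl
          | exact (f3 _ f0 ((h' 1).trans f1)).elim
          | exact (f3 _ f0 ((h' 1).symm.trans f1)).elim
          | exact (f3 _ f0 ((h' 1).trans (f2.symm.trans ((h' 0).symm.trans f0)))).elim
          | exact (f3 _ f0 ((h' 1).symm.trans (f2.symm.trans ((h' 0).trans f0)))).elim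
          | exact (f3 _ ((h' 0).trans (f2.trans ((h' 1).symm.trans f1))) f1).elim
          | exact (f3 _ ((h' 0).symm.trans (f2.trans ((h' 1).trans f1))) f1).elim
    refine ⟨Pi.single p (δ a), fun p' => by rw [Pi.single_apply]; split_ifs <;> simp, fun b => ?_⟩
    rw [Finset.sum_eq_single p (fun p' _ h => by rw [Pi.single_eq_of_ne h, zero_mul]) (by simp),
      Pi.single_eq_same]
    split_ifs with h
    · rw [← h, g1, mul_one]
    · rw [g2 b (Ne.symm h), mul_zero]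
  choose w hw hw' using key
  have hb : ∀ p, ∑ a, w a p ≤ ∑ l, dot (G.m l) d := fun p => by
    have h1 : ∀ l, dot (G.m l) d = ∑ a, dot (Sum.elim (G.m l) 0) (D.t.vd a) := fun l => by
      rw [sum_dot_vd, D.deg, dot_elim]; simp [dP]
    simp only [h1]
    rw [Finset.sum_comm]
    refine Finset.sum_le_sum fun a _ => (hw a p).trans ?_
    obtain ⟨l, hl⟩ := b4 a
    exact hl.trans (Finset.single_le_sum (f := fun l => dot (Sum.elim (G.m l) 0) (D.t.vd a))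
      (fun _ _ => Nat.zero_le _) (Finset.mem_univ l))
  obtain rfl : δ = dg D (Sum.elim 0 fun p => ∑ a, w a p) := _root_.funext fun b => by
    simp only [dg, dot_elim, Finset.sum_mul]
    rw [Finset.sum_comm]
    simp [hw', dot]
  choose l hl using fun q => hcov (D.sp q)
  have hl' : ∀ q, ∃ i, pv (mn (z.y q)) (G.q (l q) i) ≠ 0 := fun q => (hl q).imp fun i hi h => by
    obtain ⟨c, -, hc⟩ := hsp (G.hom (l q) i) q
    exact hi (by rw [hc, h, map_zero, mul_zero])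
  obtain ⟨u, u1, u2, u3, u4⟩ := desc_tuple D (by
      rintro (j | p)
      · exact N.zero_le
      · exact le_trans (by have := hb p; simp only [Pi.add_apply, Sum.elim_inr]; omega) hN')
    b1 b2 hl' fun q => by
      have h1 := b3 (D.sp q) (l q)
      simp only [hSv] at h1
      intro i i'
      have h2 := h1 i i'
      have h3 : ∀ i, pv (mn (D.t.ev (D.sp q))) (G.q (l q) i) =
          (∏ j, D.c q (Sum.inl j) ^ (G.m (l q) j : ℤ)) * D.α (pv (mn (z.y q)) (G.q (l q) i)) :=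
        fun i => by
          rw [D.ev_sp, ← pv_map]
          exact (MZ.of_MH (G.hom _ i)).pv_scl (fun j => D.c_ne q (Sum.inl j)) _
      simp only [h3] at h2
      rw [mul_left_comm, mul_left_comm (vl _ _ _ _)] at h2
      exact mul_left_cancel₀ (Finset.prod_ne_zero_iff.2 fun j _ => zpow_ne_zero _ (D.c_ne q _)) h2
  exact ⟨_, u, hb, u1, u2, fun q => ⟨l q, hl' q, u3 q⟩, u4⟩

/-- the auxiliary factors contain a coordinate for every triple of distinct points -/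
def Aux (ξ : Dat (ioP io P) (dP d P) I K) {I₀ : Type} (g : I₀ → I) : Prop :=
  ∀ a : Fin 3 → I₀, (∀ l l', l < l' → ξ.x (g (a l)) ≠ ξ.x (g (a l'))) → ∃ p,
    ax (ξ.pt (ξ.x (g (a 0)))) p 0 = 0 ∧ ax (ξ.pt (ξ.x (g (a 1)))) p 1 = 0 ∧
    ax (ξ.pt (ξ.x (g (a 2)))) p 0 = ax (ξ.pt (ξ.x (g (a 2)))) p 1

theorem lt_self {ξ : Dat io d I K} {κ : J → ℕ} {σ : K[X]} (h : ξ.Nrm κ) {V : RZ ℂ K}
    (hσ : σ.natDegree ≤ dot κ d)
    (hq : ∀ q, V.v (hv (dot κ d) σ (ξ.x q)) < (lw κ (ξ.pt (ξ.x q))).val V) (t : Option K) :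
    V.v (hv (dot κ d) σ t) < (lw κ (ξ.pt t)).val V := by
  have := lt_of_nrm h (AlgHom.id ℂ K) V rfl hσ hq t
  rwa [dat_map_id, show σ.map (AlgHom.id ℂ K : K →+* K) = σ from Polynomial.map_id] at this

/-- forms whose reductions generate have no common zero, in the valuative sense -/
theorem exists_ge {ξ : Dat io d I K} {κ : J → ℕ} (h : ξ.Nrm κ) (h2 : ξ.Nrm (κ + κ))
    {p : Pl ℂ K ℂ E} (hs : Function.Surjective p.φ) {F : ι → K[X]}
    (hF : ∀ i, (F i).natDegree ≤ dot κ d)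
    (hF' : ∀ i q, p.V.v (hv (dot κ d) (F i) (ξ.x q)) ≤ (lw κ (ξ.pt (ξ.x q))).val p.V)
    (hg : ∀ σ ∈ (ξ.cfg.red p).V (κ + κ), ∃ τ : ι → I → E, (∀ i, τ i ∈ (ξ.cfg.red p).V κ) ∧ ∀ q,
      ∑ i, τ i q * p.r (ch p.V κ (ξ.pt (ξ.x q)) * hv (dot κ d) (F i) (ξ.x q)) = σ q)
    {L : Type} [Field L] [Algebra ℂ L] (α : K →ₐ[ℂ] L) (W : RZ ℂ L)
    (hW : cm (α : K →+* L) (alg_ov α) W = p.V) (t : Option L) :
    ∃ i, (lw κ ((ξ.map α).pt t)).val W ≤ W.v (hv (dot κ d) ((F i).map (α : K →+* L)) t) := by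
  obtain ⟨σ, a1, a2, a3⟩ := exists_mono ξ (κ + κ) α W t
  obtain ⟨τ, b1, b2⟩ := hg _ ((mem_red_iff hs).2 ⟨σ, a1, fun q => a2 _ _, fun _ => rfl⟩)
  choose Θ c1 c2 c3 using fun i => (mem_red_iff hs).1 (b1 i)
  have e1 : (∑ i, Θ i * F i).natDegree ≤ dot (κ + κ) d := by
    rw [dot_add']
    exact natDegree_sum_le_of_forall_le _ _ fun i _ =>
      natDegree_mul_le.trans (add_le_add (c1 i) (hF i))
  have e2 : ∀ q, ch p.V (κ + κ) (ξ.pt (ξ.x q)) * hv (dot (κ + κ) d) (∑ i, Θ i * F i) (ξ.x q) =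
      ∑ i, ch p.V κ (ξ.pt (ξ.x q)) * hv (dot κ d) (Θ i) (ξ.x q) *
        (ch p.V κ (ξ.pt (ξ.x q)) * hv (dot κ d) (F i) (ξ.x q)) := fun q => by
    rw [dot_add', hv_sum, ch_add, Finset.mul_sum]
    exact Finset.sum_congr rfl fun i _ => by rw [hv_mul (c1 i) (hF i)]; ring
  have e3 := lt_of_nrm h2 α W hW (σ := σ + C (-1) * ∑ i, Θ i * F i)
    ((natDegree_add_le _ _).trans (max_le a1 ((natDegree_C_mul_le _ _).trans e1))) (fun q => by
      have m1 := ch_mem.2 (a2 p.V (ξ.x q))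
      have m2 := fun i => mul_mem (ch_mem.2 (c2 i q)) (ch_mem.2 (hF' i q))
      rw [← ch_lt, hv_add, hv_C_mul, neg_one_mul, ← sub_eq_add_neg, mul_sub, e2,
        ← Pl.r_eq_zero (sub_mem m1 (sum_mem fun i _ => m2 i)),
        Pl.r_sub m1 (sum_mem fun i _ => m2 i), r_sum _ fun i _ => m2 i, ← b2 q, sub_eq_zero]
      exact Finset.sum_congr rfl fun i _ => by
        rw [Pl.r_mul (ch_mem.2 (c2 i q)) (ch_mem.2 (hF' i q)), c3]) t
  by_contra hc
  push Not at hc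
  have e4 : W.v (hv (dot (κ + κ) d) ((∑ i, Θ i * F i).map (α : K →+* L)) t) <
      (lw (κ + κ) ((ξ.map α).pt t)).val W := by
    rw [Polynomial.map_sum, hv_sum]
    refine Valuation.map_sum_lt _ (val_ne _ _) fun i _ => ?_
    rw [Polynomial.map_mul, dot_add', hv_mul (natDegree_map_le.trans (c1 i))
      (natDegree_map_le.trans (hF i)), map_mul, val_lw_add]
    exact mul_lt_mul_of_le_of_lt_of_nonneg_of_pos (le_of_nrm h α W hW (c1 i) (c2 i) t) (hc i)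
      zero_le (val_pos _ _)
  rw [Polynomial.map_add, Polynomial.map_mul, map_C, hv_add, hv_C_mul, map_neg, map_one,
    neg_one_mul, ← sub_eq_add_neg] at e3
  have := Valuation.map_add_lt _ e3 e4
  rw [sub_add_cancel, a3] at this
  exact lt_irrefl _ this

theorem exists_lift (G : Cht T d Λ ι) {N : ℕ} {ξ : Dat (ioP io P) (dP d P) I K} (h : ξ.NrmUp N)
    {p : Pl ℂ K ℂ E} (hs : Function.Surjective p.φ) (hT : ∀ q, T.On (mn ((ξ.cfg.red p).y q)))
    (hk : ∀ a j, T.k a j ≤ N) (hN : 2 ≤ N) (hN' : 2 * ∑ l, dot (G.m l) d ≤ N) {I₀ : Type}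
    [Fintype I₀] (g : I₀ → I) (hg : (ξ.res g).Nrm (k2 J P)) (hA : Aux ξ g) :
    ∃ (κ : P → ℕ) (F : ι → K[X]), (∀ x, κ x ≤ ∑ l, dot (G.m l) d) ∧
      (∀ i, (F i).natDegree ≤ dot (Sum.elim 0 κ) (dP d P)) ∧
      (∀ (L : Type) [Field L] [Algebra ℂ L] (α : K →ₐ[ℂ] L) (W : RZ ℂ L),
        cm (α : K →+* L) (alg_ov α) W = p.V → ∀ t,
        (∀ i, W.v (hv (dot (Sum.elim 0 κ) (dP d P)) ((F i).map (α : K →+* L)) t) ≤
          (lw (Sum.elim 0 κ) ((ξ.map α).pt t)).val W) ∧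
        ∃ i, (lw (Sum.elim 0 κ) ((ξ.map α).pt t)).val W ≤
          W.v (hv (dot (Sum.elim 0 κ) (dP d P)) ((F i).map (α : K →+* L)) t)) ∧
      ∀ q, ∃ l, (∃ i, pv (mn ((ξ.cfg.red p).y q)) (G.q l i) ≠ 0) ∧
        Wd (fun i => p.r (ch p.V (Sum.elim 0 κ) (ξ.pt (ξ.x q)) *
          hv (dot (Sum.elim 0 κ) (dP d P)) (F i) (ξ.x q)))
          fun i => pv (mn ((ξ.cfg.red p).y q)) (G.q l i) := by
  obtain ⟨κ, u, a1, a2, -, a4, a5⟩ := cfg_lift G (tl_red h p) hT hk hN hN' g (fun u hu h0 => by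
      obtain ⟨σ, h1, h2, h3⟩ := (mem_red_iff hs).1 hu
      funext q
      rw [h3, Pi.zero_apply, Pl.r_eq_zero (ch_mem.2 (h2 q)), ch_lt]
      exact lt_self hg h1 (fun a => ch_lt.1 ((Pl.r_eq_zero (ch_mem.2 (h2 (g a)))).1
        ((h3 (g a)).symm.trans (h0 a)))) _) fun a ha => by
      obtain ⟨x, e0, e1, e2⟩ := hA a fun l l' hl e => by
        obtain ⟨u, hu, h0, h1⟩ := ha l l' hl
        obtain ⟨σ, -, -, h3⟩ := (mem_red_iff hs).1 hu
        exact h1 (by rw [h3, ← e, ← h3, h0])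
      have f : ∀ q i, ax ((ξ.cfg.red p).y q) x i =
          p.r (ξ.cfg.nrm p.V q (Sum.inr x) * ax (ξ.pt (ξ.x q)) x i) := fun _ _ => rfl
      exact ⟨x, by rw [f, e0, mul_zero, Pl.r_zero], by rw [f, e1, mul_zero, Pl.r_zero],
        by rw [f, f, e2]⟩
  have k1 : ∀ j, (Sum.elim (0 : J → ℕ) κ + Sum.elim (0 : J → ℕ) κ) j ≤ N := by
    rintro (j | x)
    · exact N.zero_le
    · exact le_trans (by have := a1 x; simp only [Pi.add_apply, Sum.elim_inr]; omega) hN'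
  have k0 : ∀ j, Sum.elim (0 : J → ℕ) κ j ≤ N := fun j => le_trans (Nat.le_add_right _ _) (k1 j)
  choose F c1 c2 c3 using fun i => (mem_red_iff hs).1 (a2 i)
  refine ⟨κ, F, a1, c1, fun L _ _ α W hW t => ⟨fun i => le_of_nrm (h _ k0) α W hW (c1 i) (c2 i) t,
    exists_ge (h _ k0) (h _ k1) hs c1 c2 (by simpa only [c3] using a5) α W hW t⟩, fun q => ?_⟩
  simpa only [c3] using a4 q

end Crest.Agent.X262.Emb96
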